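import Mathlib

/-!
# Riesz representation of a functional which is bounded in `L²` of a measure
-/

open Set MeasureTheory Filter Topology
open scoped ENNReal

noncomputable section

namespace Vale.Agent.P247.H899

variable {E : Type*} [MeasurableSpace E]

lemma norm_toLp_two {τ : Measure E} {f : E → ℂ} (hf : MemLp f 2 τ) :
    ‖hf.toLp f‖ = Real.sqrt (∫ x, ‖f x‖ ^ 2 ∂τ) := by
  have h1 : ‖hf.toLp f‖ ^ 2 = ∫ x, ‖f x‖ ^ 2 ∂τ := by
    have h2 := MeasureTheory.L2.inner_def (𝕜 := ℂ) (hf.toLp f) (hf.toLp f)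
    have h3 : ((‖hf.toLp f‖ ^ 2 : ℝ) : ℂ) = ((∫ x, ‖f x‖ ^ 2 ∂τ : ℝ) : ℂ) := by
      have h4 : inner ℂ (hf.toLp f) (hf.toLp f) = ((‖hf.toLp f‖ : ℝ) : ℂ) ^ 2 :=
        inner_self_eq_norm_sq_to_K (𝕜 := ℂ) (hf.toLp f)
      rw [Complex.ofReal_pow, ← h4, h2]
      refine Eq.trans ?_ (integral_ofReal (𝕜 := ℂ))
      refine integral_congr_ae ?_
      filter_upwards [hf.coeFn_toLp] with x hx
      have h5 : inner ℂ (f x) (f x) = ((‖f x‖ : ℝ) : ℂ) ^ 2 :=
        inner_self_eq_norm_sq_to_K (𝕜 := ℂ) (f x)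
      rw [hx, h5]
      push_cast
      rfl
    exact_mod_cast h3
  rw [← h1, Real.sqrt_sq (norm_nonneg _)]

/-- A linear functional on a space of square integrable functions which is bounded in the `L²`
norm is integration against a square integrable function. -/
theorem riesz_of_bound (τ : Measure E) (K : Submodule ℂ (E → ℂ)) (hK : ∀ f ∈ K, MemLp f 2 τ)
    (Λ : K →ₗ[ℂ] ℂ) (C : ℝ)
    (hΛ : ∀ f : K, ‖Λ f‖ ≤ C * Real.sqrt (∫ x, ‖(f : E → ℂ) x‖ ^ 2 ∂τ)) :
    ∃ P : E → ℂ, MemLp P 2 τ ∧ StronglyMeasurable P ∧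
      ∀ f : K, Integrable (fun x => (f : E → ℂ) x * P x) τ ∧
        Λ f = ∫ x, (f : E → ℂ) x * P x ∂τ := by
  classical
  -- the linear map into Lp
  let ι : K →ₗ[ℂ] Lp ℂ 2 τ :=
    { toFun := fun f => (hK f f.2).toLp f
      map_add' := fun f g => by
        rw [← MemLp.toLp_add]; rfl
      map_smul' := fun c f => by
        rw [RingHom.id_apply, ← MemLp.toLp_const_smul]; rfl }
  have hι : ∀ f : K, ‖ι f‖ = Real.sqrt (∫ x, ‖(f : E → ℂ) x‖ ^ 2 ∂τ) := fun f =>
    norm_toLp_two (hK f f.2)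
  have hker : LinearMap.ker ι ≤ LinearMap.ker Λ := by
    intro f hf
    rw [LinearMap.mem_ker] at hf ⊢
    have h1 := hΛ f
    rw [← hι f, hf, norm_zero, mul_zero] at h1
    exact norm_le_zero_iff.1 h1
  -- functional on the range
  let Λ' : LinearMap.range ι →ₗ[ℂ] ℂ :=
    ((LinearMap.ker ι).liftQ Λ hker).comp ι.quotKerEquivRange.symm.toLinearMap
  have hΛ' : ∀ f : K, Λ' ⟨ι f, LinearMap.mem_range_self ι f⟩ = Λ f := by
    intro f
    have h1 : ι.quotKerEquivRange.symm ⟨ι f, LinearMap.mem_range_self ι f⟩ =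
        (LinearMap.ker ι).mkQ f := by
      rw [LinearEquiv.symm_apply_eq]
      ext1
      simp [LinearMap.quotKerEquivRange_apply_mk]
    simp only [Λ', LinearMap.comp_apply, LinearEquiv.coe_coe, h1]
    simp
  have hbd : ∀ F : LinearMap.range ι, ‖Λ' F‖ ≤ C * ‖F‖ := by
    rintro ⟨F, f, rfl⟩
    have := hΛ f
    rw [← hι f] at this
    rw [hΛ' f]
    exact this
  let L0 : StrongDual ℂ (LinearMap.range ι) := Λ'.mkContinuous C hbd
  obtain ⟨L, hL, -⟩ := exists_extension_norm_eq (LinearMap.range ι) L0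
  let G : Lp ℂ 2 τ := (InnerProductSpace.toDual ℂ (Lp ℂ 2 τ)).symm L
  have hG : ∀ F : Lp ℂ 2 τ, inner ℂ G F = L F := fun F =>
    InnerProductSpace.toDual_symm_apply
  have hGm : StronglyMeasurable (G : E → ℂ) := Lp.stronglyMeasurable G
  refine ⟨fun x => star ((G : E → ℂ) x), (Lp.memLp G).star, ?_, fun f => ?_⟩
  · exact continuous_star.comp_stronglyMeasurable hGm
  · have hf := hK f f.2
    have hint : Integrable (fun x => (f : E → ℂ) x * star ((G : E → ℂ) x)) τ :=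
      hf.integrable_mul (Lp.memLp G).star
    refine ⟨hint, ?_⟩
    have h1 : Λ f = L (ι f) := by
      have := hL ⟨ι f, LinearMap.mem_range_self ι f⟩
      rw [this]
      simp only [L0, LinearMap.mkContinuous_apply]
      exact (hΛ' f).symm
    rw [h1, ← hG, MeasureTheory.L2.inner_def]
    refine integral_congr_ae ?_
    filter_upwards [hf.coeFn_toLp] with x hx
    have : (ι f : E → ℂ) x = (f : E → ℂ) x := hx
    rw [this]
    simp [RCLike.inner_apply]

end Vale.Agent.P247.H899
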