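import Vale.Agent.P247.H899.Rep

/-!
# MGX: in a good box the current is a multigraph, up to a vertical part
-/

open scoped ContDiff Topology ComplexConjugate
open Set MeasureTheory Filter Metric

noncomputable section

namespace Vale.Agent.P247.H899

open Vale.Agent.P247.H74 Vale.Agent.P247.H574 Vale.Agent.P247.H264

/-- one-forms with coefficients depending on a complex function -/
def alz (f : ℂ × ℂ → ℂ) (A B : (ℂ × ℂ) →L[ℝ] ℝ) (p : ℂ × ℂ) : (ℂ × ℂ) →L[ℝ] ℝ :=
  (f p).re • A + (f p).im • B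

lemma contDiff_alz {f : ℂ × ℂ → ℂ} (hf : ContDiff ℝ ∞ f) (A B : (ℂ × ℂ) →L[ℝ] ℝ) :
    ContDiff ℝ ∞ (alz f A B) :=
  ((Complex.reCLM.contDiff.comp hf).smul contDiff_const).add
    ((Complex.imCLM.contDiff.comp hf).smul contDiff_const)

lemma fderiv_alz {f : ℂ × ℂ → ℂ} (hf : ContDiff ℝ ∞ f) (A B : (ℂ × ℂ) →L[ℝ] ℝ) (p v w : ℂ × ℂ) :
    fderiv ℝ (alz f A B) p v w = (fderiv ℝ f p v).re * A w + (fderiv ℝ f p v).im * B w := by
  have h0 : HasFDerivAt f (fderiv ℝ f p) p := (hf.differentiable (by simp) _).hasFDerivAt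
  have h1 : HasFDerivAt (fun p => (f p).re) (Complex.reCLM.comp (fderiv ℝ f p)) p :=
    Complex.reCLM.hasFDerivAt.comp p h0
  have h2 : HasFDerivAt (fun p => (f p).im) (Complex.imCLM.comp (fderiv ℝ f p)) p :=
    Complex.imCLM.hasFDerivAt.comp p h0
  have h3 : HasFDerivAt (alz f A B) _ p := (h1.smul_const A).add (h2.smul_const B)
  rw [h3.fderiv]
  rfl

lemma alz_zero {f : ℂ × ℂ → ℂ} (A B : (ℂ × ℂ) →L[ℝ] ℝ) {p : ℂ × ℂ} (h : p ∉ tsupport f) :
    alz f A B p = 0 := by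
  rw [alz, image_eq_zero_of_notMem_tsupport h]
  simp

/-- the derivative in complex coordinates -/
lemma fderiv_expand (f : ℂ × ℂ → ℂ) (p v : ℂ × ℂ) : fderiv ℝ f p v =
    dC f p (1, 0) * v.1 + dbC f p (1, 0) * conj v.1 + dC f p (0, 1) * v.2 +
      dbC f p (0, 1) * conj v.2 := by
  have e : v = v.1.re • ((1 : ℂ), (0 : ℂ)) + v.1.im • (Complex.I, (0 : ℂ)) +
      (v.2.re • ((0 : ℂ), (1 : ℂ)) + v.2.im • ((0 : ℂ), Complex.I)) := by
    refine Prod.ext (Complex.ext ?_ ?_) (Complex.ext ?_ ?_) <;> simp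
  have e1 : Complex.I • ((1 : ℂ), (0 : ℂ)) = (Complex.I, 0) := by simp
  have e2 : Complex.I • ((0 : ℂ), (1 : ℂ)) = (0, Complex.I) := by simp
  simp only [dC, dbC, e1, e2]
  conv_lhs => rw [e]
  simp only [map_add, map_smul, Complex.real_smul]
  generalize fderiv ℝ f p (1, 0) = x1
  generalize fderiv ℝ f p (Complex.I, 0) = x2
  generalize fderiv ℝ f p (0, 1) = x3
  generalize fderiv ℝ f p (0, Complex.I) = x4
  apply Complex.ext
  · simp
    ring
  · simp
    ring

lemma cfst_apply (v : ℂ × ℂ) :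
    ((Complex.conjCLE : ℂ →L[ℝ] ℂ).comp (ContinuousLinearMap.fst ℝ ℂ ℂ)) v = conj v.1 := rfl

lemma csnd_apply (v : ℂ × ℂ) :
    ((Complex.conjCLE : ℂ →L[ℝ] ℂ).comp (ContinuousLinearMap.snd ℝ ℂ ℂ)) v = conj v.2 := rfl

lemma fst_apply' (v : ℂ × ℂ) : (ContinuousLinearMap.fst ℝ ℂ ℂ) v = v.1 := rfl

variable {D : Data} {S : ICur D} {b : Box D} {ρ : ℝ} {N : ℕ} {Y : ℂ → Fin N → ℂ} {G : ℂ × ℂ → ℂ}

/-- the value of `d (f λ)` on two vectors -/
def XX (f : ℂ × ℂ → ℂ) (L : (ℂ × ℂ) →L[ℝ] ℂ) (p v w : ℂ × ℂ) : ℂ :=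
  fderiv ℝ f p v * L w - fderiv ℝ f p w * L v

namespace Sh

variable (H : Sh S b ρ N Y G)
include H

theorem F0 {R : Measure (ℂ × ℂ)} (hR1 : ∀ᵐ p ∂(R), ‖p.1‖ < 1 ∧ ‖p.2‖ ≤ ρ)
    (hR2 : ∀ d, KK 1 d → tv S b d = ∫ p, d p * ‖G p‖ ^ 2 * (1 - ‖b.m p‖ ^ 2) ∂(tau Y) +
      ∫ p, d p ∂(R)) {f : ℂ × ℂ → ℂ} (hf : ContDiff ℝ ∞ f) (hfK : KK 1 f)
    (A B : (ℂ × ℂ) →L[ℝ] ℝ) :
    Integrable (fun p => dal (alz f A B) p (1, G p + (b.m p * G p + b.A p))
      (Complex.I, Complex.I * (G p - (b.m p * G p + b.A p)))) (tau Y) ∧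
    ∫ p, dal (alz f A B) p (1, G p + (b.m p * G p + b.A p))
      (Complex.I, Complex.I * (G p - (b.m p * G p + b.A p))) ∂(tau Y) +
      ∫ p, dal (alz f A B) p (0, 1) (0, Complex.I) ∂(R) = 0 := by
  have hal := (contDiff_alz hf A B).contDiffOn (s := PD 2)
  have hK : IsCompact (tsupport f) := hfK.hcs.isCompact
  have hK2 : tsupport f ⊆ PD 2 := hfK.sub.trans (PD_mono one_le_two)
  have h0 : ∀ p, p ∉ tsupport f → alz f A B p = 0 := fun p hp => alz_zero A B hp
  obtain ⟨h1, h2⟩ := dal_cf b hal hK hK2 h0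
  obtain ⟨h3, h4⟩ := H.rep hR1 hR2 h1 (h2.trans (image_mono hfK.sub))
  rw [T_dal b S hal hK hK2 h0] at h4
  have h5 : ∀ p ∈ PD 2, ∀ v w, pull b (push2 b (dal (alz f A B))) p v w =
      dal (alz f A B) p v w := fun p hp v w => by
    rw [pull_apply, push2_apply b _ hp]
  have h6 : (fun p => pull b (push2 b (dal (alz f A B))) p (1, G p + (b.m p * G p + b.A p))
      (Complex.I, Complex.I * (G p - (b.m p * G p + b.A p)))) =ᵐ[tau Y]
      fun p => dal (alz f A B) p (1, G p + (b.m p * G p + b.A p))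
      (Complex.I, Complex.I * (G p - (b.m p * G p + b.A p))) := by
    filter_upwards [H.supPD] with p hp
    exact h5 p (PD_mono one_le_two hp) _ _
  have h7 : (fun p => pull b (push2 b (dal (alz f A B))) p (0, 1) (0, Complex.I)) =ᵐ[R]
      fun p => dal (alz f A B) p (0, 1) (0, Complex.I) := by
    filter_upwards [hR1] with p hp
    exact h5 p (PD_mono one_le_two (H.mem_PD1 hp)) _ _
  refine ⟨h3.congr h6, ?_⟩
  rw [← integral_congr_ae h6, ← integral_congr_ae h7]
  exact h4.symm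

theorem F1 {R : Measure (ℂ × ℂ)} (hR0 : R univ < ⊤) (hR1 : ∀ᵐ p ∂(R), ‖p.1‖ < 1 ∧ ‖p.2‖ ≤ ρ)
    (hR2 : ∀ d, KK 1 d → tv S b d = ∫ p, d p * ‖G p‖ ^ 2 * (1 - ‖b.m p‖ ^ 2) ∂(tau Y) +
      ∫ p, d p ∂(R)) {f : ℂ × ℂ → ℂ} (hf : ContDiff ℝ ∞ f) (hfK : KK 1 f)
    (L : (ℂ × ℂ) →L[ℝ] ℂ) :
    Integrable (fun p => XX f L p (1, G p + (b.m p * G p + b.A p))
      (Complex.I, Complex.I * (G p - (b.m p * G p + b.A p)))) (tau Y) ∧
    ∫ p, XX f L p (1, G p + (b.m p * G p + b.A p))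
      (Complex.I, Complex.I * (G p - (b.m p * G p + b.A p))) ∂(tau Y) +
      ∫ p, XX f L p (0, 1) (0, Complex.I) ∂(R) = 0 := by
  have hfin : IsFiniteMeasure R := ⟨hR0⟩
  obtain ⟨r1, r2⟩ := H.F0 hR1 hR2 hf hfK (Complex.reCLM.comp L) (-(Complex.imCLM.comp L))
  obtain ⟨s1, s2⟩ := H.F0 hR1 hR2 hf hfK (Complex.imCLM.comp L) (Complex.reCLM.comp L)
  have er : ∀ p v w, dal (alz f (Complex.reCLM.comp L) (-(Complex.imCLM.comp L))) p v w =
      (XX f L p v w).re := by
    intro p v w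
    rw [dal_apply, fderiv_alz hf, fderiv_alz hf, XX]
    simp only [neg_apply, ContinuousLinearMap.comp_apply, Complex.reCLM_apply,
      Complex.imCLM_apply, Complex.sub_re, Complex.mul_re]
    ring
  have ei : ∀ p v w, dal (alz f (Complex.imCLM.comp L) (Complex.reCLM.comp L)) p v w =
      (XX f L p v w).im := by
    intro p v w
    rw [dal_apply, fderiv_alz hf, fderiv_alz hf, XX]
    simp only [ContinuousLinearMap.comp_apply, Complex.reCLM_apply,
      Complex.imCLM_apply, Complex.sub_im, Complex.mul_im]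
  simp only [er] at r1 r2
  simp only [ei] at s1 s2
  have hX : Integrable (fun p => XX f L p (1, G p + (b.m p * G p + b.A p))
      (Complex.I, Complex.I * (G p - (b.m p * G p + b.A p)))) (tau Y) := by
    have h1 := (r1.ofReal (𝕜 := ℂ)).add ((s1.ofReal (𝕜 := ℂ)).mul_const Complex.I)
    refine h1.congr (Eventually.of_forall fun p => ?_)
    exact Complex.re_add_im _
  have hX' : Integrable (fun p => XX f L p (0, 1) (0, Complex.I)) R := by
    have h1 : Continuous fun p => XX f L p (0, 1) (0, Complex.I) := by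
      have h2 := hf.continuous_fderiv (by simp)
      exact ((h2.clm_apply continuous_const).mul continuous_const).sub
        ((h2.clm_apply continuous_const).mul continuous_const)
    have h2 : HasCompactSupport fun p => XX f L p (0, 1) (0, Complex.I) := by
      refine HasCompactSupport.intro (hfK.hcs.fderiv ℝ).isCompact fun p hp => ?_
      rw [XX, image_eq_zero_of_notMem_tsupport hp]
      simp
    exact h1.integrable_of_hasCompactSupport h2
  refine ⟨hX, Complex.ext ?_ ?_⟩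
  · rw [Complex.add_re, Complex.zero_re]
    have h1 := integral_re hX
    have h2 := integral_re hX'
    rw [← r2]
    exact (congrArg₂ (· + ·) h1 h2).symm
  · rw [Complex.add_im, Complex.zero_im]
    have h1 := integral_im hX
    have h2 := integral_im hX'
    rw [← s2]
    exact (congrArg₂ (· + ·) h1 h2).symm

end Sh

/-- cut off in the vertical direction -/
lemma cut_smooth (hρ : 0 < ρ ∧ ρ < 1) {f : ℂ × ℂ → ℂ} (hf : ContDiff ℝ ∞ f)
    (hfc : HasCompactSupport f) (hft : tsupport f ⊆ ball (0 : ℂ) 1 ×ˢ univ) :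
    ContDiff ℝ ∞ (fun p : ℂ × ℂ => f p * ((bmp hρ p.2 : ℝ) : ℂ)) ∧
    KK 1 (fun p : ℂ × ℂ => f p * ((bmp hρ p.2 : ℝ) : ℂ)) ∧
    ∀ p : ℂ × ℂ, ‖p.2‖ ≤ ρ → fderiv ℝ (fun p : ℂ × ℂ => f p * ((bmp hρ p.2 : ℝ) : ℂ)) p =
      fderiv ℝ f p := by
  have h1 : ContDiff ℝ ∞ (fun p : ℂ × ℂ => ((bmp hρ p.2 : ℝ) : ℂ)) :=
    Complex.ofRealCLM.contDiff.comp ((bmp hρ).contDiff.comp contDiff_snd)
  refine ⟨hf.mul h1, ⟨(hf.mul h1).continuous, hfc.mul_right, ?_⟩, fun p hp => ?_⟩
  · intro p hp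
    have h2 : p ∈ tsupport f := (tsupport_mul_subset_left (f := f)) hp
    have h3 : p ∈ tsupport (fun p : ℂ × ℂ => ((bmp hρ p.2 : ℝ) : ℂ)) :=
      (tsupport_mul_subset_right (f := f)) hp
    refine ⟨(hft h2).1, ?_⟩
    have h4 : tsupport (fun p : ℂ × ℂ => ((bmp hρ p.2 : ℝ) : ℂ)) ⊆
        Prod.snd ⁻¹' (tsupport (bmp hρ : ℂ → ℝ)) := by
      refine closure_minimal (fun q hq => ?_) ((isClosed_tsupport _).preimage continuous_snd)
      refine subset_tsupport _ fun h5 => hq ?_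
      simp only [h5, Complex.ofReal_zero]
    exact bmp_tsupport hρ (h4 h3)
  · refine Filter.EventuallyEq.fderiv_eq ?_
    have h2 : ∀ᶠ q : ℂ × ℂ in 𝓝 p, bmp hρ q.2 = 1 :=
      continuous_snd.continuousAt.eventually (bmp_eventually hρ hp)
    filter_upwards [h2] with q hq
    rw [hq]
    simp

/-- **MGX** -/
theorem MGX : MGX_statement := by
  intro D S b ρ hG
  obtain ⟨N, Y, G, H⟩ := exists_Sh hG
  obtain ⟨R, hR0, hR1, hR2⟩ := H.exists_vert
  have hρ := H.hρ
  have hdC : ∀ {f g : ℂ × ℂ → ℂ} {p : ℂ × ℂ} (v : ℂ × ℂ), fderiv ℝ f p = fderiv ℝ g p →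
      dC f p v = dC g p v ∧ dbC f p v = dbC g p v := by
    intro f g p v h
    constructor
    · rw [dC, dC, h]
    · rw [dbC, dbC, h]
  refine ⟨N, Y, fun z i => G (z, Y z i), R, ?_, ?_⟩
  · refine
    { measY := H.hY
      measP := fun i => H.Gm.measurable.comp (meas_graph H.hY i)
      bdd := H.hYρ
      energy := ?_
      same := fun z i j hij => by simp only [hij]
      chain := ?_
      chainb := ?_
      Rfin := hR0
      Rsupp := hR1
      quad := ?_ }
    · exact integrable_finsetSum _ fun i _ => tau_integrable H.hY H.G2int i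
    · intro f hf hfc hft
      obtain ⟨c1, c2, c3⟩ := cut_smooth hρ hf hfc hft
      obtain ⟨h1, h2⟩ := H.F1 hR0 hR1 hR2 c1 c2
        ((Complex.conjCLE : ℂ →L[ℝ] ℂ).comp (ContinuousLinearMap.fst ℝ ℂ ℂ))
      have h3 : (fun p => XX (fun p : ℂ × ℂ => f p * ((bmp hρ p.2 : ℝ) : ℂ))
          ((Complex.conjCLE : ℂ →L[ℝ] ℂ).comp (ContinuousLinearMap.fst ℝ ℂ ℂ)) p
          (1, G p + (b.m p * G p + b.A p))
          (Complex.I, Complex.I * (G p - (b.m p * G p + b.A p)))) =ᵐ[tau Y]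
          fun p => (-2 * Complex.I) * (dC f p (1, 0) + dC f p (0, 1) * G p +
            dbC f p (0, 1) * conj (b.m p * G p + b.A p)) := by
        filter_upwards [H.sup] with p hp
        rw [XX, c3 p hp.2, fderiv_expand f p, fderiv_expand f p]
        simp only [cfst_apply, map_one, Complex.conj_I, map_mul, map_add, map_sub]
        ring
      have h4 : ∫ p, XX (fun p : ℂ × ℂ => f p * ((bmp hρ p.2 : ℝ) : ℂ))
          ((Complex.conjCLE : ℂ →L[ℝ] ℂ).comp (ContinuousLinearMap.fst ℝ ℂ ℂ)) p (0, 1)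
          (0, Complex.I) ∂(R) = 0 := by
        refine integral_eq_zero_of_ae (Eventually.of_forall fun p => ?_)
        simp [XX]
      rw [h4, add_zero, integral_congr_ae h3, tau_integral H.hY (h1.congr h3)] at h2
      simp only [← Finset.mul_sum] at h2
      rw [integral_const_mul] at h2
      exact (mul_eq_zero.1 h2).resolve_left (by simp)
    · intro f hf hfc hft
      obtain ⟨c1, c2, c3⟩ := cut_smooth hρ hf hfc hft
      obtain ⟨h1, h2⟩ := H.F1 hR0 hR1 hR2 c1 c2 (ContinuousLinearMap.fst ℝ ℂ ℂ)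
      have h3 : (fun p => XX (fun p : ℂ × ℂ => f p * ((bmp hρ p.2 : ℝ) : ℂ))
          (ContinuousLinearMap.fst ℝ ℂ ℂ) p (1, G p + (b.m p * G p + b.A p))
          (Complex.I, Complex.I * (G p - (b.m p * G p + b.A p)))) =ᵐ[tau Y]
          fun p => (2 * Complex.I) * (dbC f p (1, 0) + dC f p (0, 1) * (b.m p * G p + b.A p) +
            dbC f p (0, 1) * conj (G p)) := by
        filter_upwards [H.sup] with p hp
        rw [XX, c3 p hp.2, fderiv_expand f p, fderiv_expand f p]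
        simp only [fst_apply', map_one, Complex.conj_I, map_mul, map_add, map_sub]
        ring
      have h4 : ∫ p, XX (fun p : ℂ × ℂ => f p * ((bmp hρ p.2 : ℝ) : ℂ))
          (ContinuousLinearMap.fst ℝ ℂ ℂ) p (0, 1) (0, Complex.I) ∂(R) = 0 := by
        refine integral_eq_zero_of_ae (Eventually.of_forall fun p => ?_)
        simp [XX]
      rw [h4, add_zero, integral_congr_ae h3, tau_integral H.hY (h1.congr h3)] at h2
      simp only [← Finset.mul_sum] at h2
      rw [integral_const_mul] at h2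
      exact (mul_eq_zero.1 h2).resolve_left (by simp)
    · intro f hf hfc hft
      obtain ⟨c1, c2, c3⟩ := cut_smooth hρ hf hfc hft
      obtain ⟨h1, h2⟩ := H.F1 hR0 hR1 hR2 c1 c2
        ((Complex.conjCLE : ℂ →L[ℝ] ℂ).comp (ContinuousLinearMap.snd ℝ ℂ ℂ))
      have h3 : (fun p => XX (fun p : ℂ × ℂ => f p * ((bmp hρ p.2 : ℝ) : ℂ))
          ((Complex.conjCLE : ℂ →L[ℝ] ℂ).comp (ContinuousLinearMap.snd ℝ ℂ ℂ)) p
          (1, G p + (b.m p * G p + b.A p))
          (Complex.I, Complex.I * (G p - (b.m p * G p + b.A p)))) =ᵐ[tau Y]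
          fun p => (-2 * Complex.I) * (dC f p (1, 0) * conj (G p) -
            dbC f p (1, 0) * conj (b.m p * G p + b.A p) + dC f p (0, 1) *
            ((‖G p‖ ^ 2 - ‖b.m p * G p + b.A p‖ ^ 2 : ℝ) : ℂ)) := by
        filter_upwards [H.sup] with p hp
        rw [XX, c3 p hp.2, fderiv_expand f p, fderiv_expand f p, csnd_apply, csnd_apply]
        push_cast
        rw [← Complex.mul_conj', ← Complex.mul_conj']
        simp only [map_one, Complex.conj_I, map_mul, map_add, map_sub]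
        ring
      have h4 : ∫ p, XX (fun p : ℂ × ℂ => f p * ((bmp hρ p.2 : ℝ) : ℂ))
          ((Complex.conjCLE : ℂ →L[ℝ] ℂ).comp (ContinuousLinearMap.snd ℝ ℂ ℂ)) p (0, 1)
          (0, Complex.I) ∂(R) = (-2 * Complex.I) * ∫ p, dC f p (0, 1) ∂(R) := by
        rw [← integral_const_mul]
        refine integral_congr_ae ?_
        filter_upwards [hR1] with p hp
        rw [XX, c3 p hp.2, fderiv_expand f p, fderiv_expand f p]
        simp only [csnd_apply, map_one, Complex.conj_I, map_zero]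
        ring
      rw [h4, integral_congr_ae h3, tau_integral H.hY (h1.congr h3)] at h2
      simp only [← Finset.mul_sum] at h2
      rw [integral_const_mul, ← mul_add] at h2
      exact (mul_eq_zero.1 h2).resolve_left (by simp)
  · intro φ hφ hs
    obtain ⟨h1, h2⟩ := H.rep hR1 hR2 hφ hs
    rw [h2, tau_integral H.hY h1]
    rfl

end Vale.Agent.P247.H899
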