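import Vale.Agent.P247.H899.Vrt2
import Vale.Agent.P247.H620.LPui

/-!
# VERT: the vertical part of a multigraph with Puiseux structure vanishes
-/

open scoped ContDiff Topology ComplexConjugate
open Set MeasureTheory Filter Metric

noncomputable section

namespace Vale.Agent.P247.H899

open Vale.Agent.P247.H74 Vale.Agent.P247.H574 Vale.Agent.P247.H620

variable {N : ℕ} {m A : ℂ × ℂ → ℂ} {Y P : ℂ → Fin N → ℂ} {δ ρ : ℝ} {L : ℕ} {k μ : Fin L → ℕ}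
  {W : Fin L → ℂ → ℂ} {R : Measure (ℂ × ℂ)}

lemma wz_eq_d1 (V : ℂ → ℂ) (z : ℂ) : wz V z = d1 V z := by
  rw [wz, d1]; ring

lemma wb_eq_dbar (V : ℂ → ℂ) (z : ℂ) : wb V z = dbar V z := by
  rw [wb, dbar, smul_eq_mul, smul_eq_mul]; ring

/-- `∂̄` of a composition with a holomorphic function -/
lemma wb_comp {V f : ℂ → ℂ} {z f' : ℂ} (hV : DifferentiableAt ℝ V (f z))
    (hf : HasDerivAt f f' z) : wb (fun w => V (f w)) z = wb V (f z) * conj f' := by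
  have h1 : HasFDerivAt (fun w => V (f w))
      ((fderiv ℝ V (f z)).comp ((ContinuousLinearMap.toSpanSingleton ℂ f').restrictScalars ℝ)) z :=
    hV.hasFDerivAt.comp z (hf.hasFDerivAt.restrictScalars ℝ)
  rw [wb, wb, h1.fderiv]
  simp only [ContinuousLinearMap.comp_apply, ContinuousLinearMap.coe_restrictScalars',
    ContinuousLinearMap.toSpanSingleton_apply, smul_eq_mul, one_mul]
  rw [rl_decomp (fderiv ℝ V (f z)) f', rl_decomp (fderiv ℝ V (f z)) (Complex.I * f')]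
  simp only [map_mul, Complex.conj_I]
  linear_combination ((1 / 4 : ℂ) * f' * (fderiv ℝ V (f z) 1 - Complex.I * fderiv ℝ V (f z)
    Complex.I) - (1 / 4 : ℂ) * conj f' * (fderiv ℝ V (f z) 1 + Complex.I * fderiv ℝ V (f z)
    Complex.I)) * Complex.I_mul_I

/-- the root function -/
def sj (k : ℕ) (z₀ : ℂ) (j : ℕ) (z : ℂ) : ℂ := om k j * lrt k (rt k z₀) z

/-- the local sheets -/
def Vs (k : Fin L → ℕ) (W : Fin L → ℂ → ℂ) (z₀ : ℂ) (l : Fin L) (j : ℕ) (z : ℂ) : ℂ :=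
  W l (sj (k l) z₀ j z)

lemma sj_pow {k : ℕ} (hk : 1 ≤ k) {z₀ : ℂ} (h0 : z₀ ≠ 0) (j : ℕ) (z : ℂ) :
    sj k z₀ j z ^ k = z := by
  rw [sj, mul_pow, om_pow hk, lrt_pow hk (rt_ne hk h0), one_mul]

lemma sj_hasDerivAt {k : ℕ} (hk : 1 ≤ k) {z₀ z : ℂ} (j : ℕ)
    (hz : z ∈ ball z₀ ‖z₀‖) :
    HasDerivAt (sj k z₀ j) ((k * sj k z₀ j z ^ (k - 1))⁻¹) z := by
  have h1 := lrt_hasDerivAt (k := k) hk (s₀ := rt k z₀) (z := z) (by rwa [rt_pow hk])
  have h2 := h1.const_mul (om k j)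
  have h3 : om k j * (k * lrt k (rt k z₀) z ^ (k - 1))⁻¹ = (k * sj k z₀ j z ^ (k - 1))⁻¹ := by
    have e1 : om k j ^ (k - 1) * om k j = 1 := by
      rw [← pow_succ, Nat.sub_add_cancel hk, om_pow hk]
    have e2 : om k j = (om k j ^ (k - 1))⁻¹ := eq_inv_of_mul_eq_one_right e1
    rw [sj, mul_pow]
    conv_lhs => rw [e2]
    rw [← mul_inv]
    congr 1
    ring
  rw [h3] at h2
  exact h2

lemma sj_ne {k : ℕ} (hk : 1 ≤ k) {z₀ z : ℂ} (h0 : z₀ ≠ 0) (j : ℕ) (hz : z ≠ 0) :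
    sj k z₀ j z ≠ 0 := by
  intro h
  have := sj_pow hk h0 j z
  rw [h, zero_pow (by omega)] at this
  exact hz this.symm

lemma ne_of_mem_ball {z₀ z : ℂ} (hz : z ∈ ball z₀ ‖z₀‖) : z ≠ 0 := by
  rintro rfl
  rw [mem_ball, dist_eq_norm, zero_sub, norm_neg] at hz
  exact lt_irrefl _ hz

lemma Vs_smooth (h : Pui m A Y δ k μ W) {z₀ : ℂ} (h0 : z₀ ≠ 0) (l : Fin L) (j : ℕ) :
    ContDiffOn ℝ ∞ (Vs k W z₀ l j) (ball z₀ ‖z₀‖ ∩ ball 0 δ) := by
  refine (h.smooth l).comp ?_ fun z hz => ⟨?_, ?_⟩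
  · have h1 := lrt_smooth (h.one_k l) (rt (k l) z₀)
    rw [rt_pow (h.one_k l)] at h1
    exact contDiffOn_const.mul (h1.mono inter_subset_left)
  · show ‖sj (k l) z₀ j z‖ ^ k l < δ
    rw [← norm_pow, sj_pow (h.one_k l) h0]
    exact mem_ball_zero_iff.1 hz.2
  · exact sj_ne (h.one_k l) h0 j (ne_of_mem_ball hz.1)

/-- the equation for the local sheets, and `P` -/
lemma Vs_eq (h : Pui m A Y δ k μ W) {z₀ z : ℂ} (h0 : z₀ ≠ 0) (l : Fin L) (j : ℕ)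
    (hz : z ∈ ball z₀ ‖z₀‖ ∩ ball 0 δ) :
    wz (Vs k W z₀ l j) z = d1 (W l) (sj (k l) z₀ j z) *
        (k l * sj (k l) z₀ j z ^ (k l - 1))⁻¹ ∧
      wb (Vs k W z₀ l j) z = m (z, Vs k W z₀ l j z) * wz (Vs k W z₀ l j) z +
        A (z, Vs k W z₀ l j z) := by
  have hk := h.one_k l
  set s := sj (k l) z₀ j z with hs
  have hz0 := ne_of_mem_ball hz.1
  have hs0 : s ≠ 0 := sj_ne hk h0 j hz0
  have hsk : s ^ k l = z := sj_pow hk h0 j z
  have hsδ : ‖s‖ ^ k l < δ := by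
    rw [← norm_pow, hsk]; exact mem_ball_zero_iff.1 hz.2
  have h4 : DifferentiableAt ℝ (W l) s := by
    have ho : IsOpen ({s : ℂ | ‖s‖ ^ k l < δ} \ {0}) :=
      (isOpen_lt (by fun_prop) continuous_const).sdiff isClosed_singleton
    exact ((h.smooth l).contDiffAt (ho.mem_nhds ⟨hsδ, hs0⟩)).differentiableAt (by simp)
  have h5 := sj_hasDerivAt hk j hz.1
  have e1 : wz (Vs k W z₀ l j) z = d1 (W l) s * (k l * s ^ (k l - 1))⁻¹ := by
    rw [wz_eq_d1]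
    exact d1_comp h4 h5
  have e2 : wb (Vs k W z₀ l j) z = wb (W l) s * conj ((k l * s ^ (k l - 1))⁻¹) :=
    wb_comp h4 h5
  refine ⟨e1, ?_⟩
  rw [e2, e1, wb_eq_dbar, h.eq l s hs0 hsδ, hsk]
  have hkc : (k l : ℂ) ≠ 0 := Nat.cast_ne_zero.2 (by omega)
  have hsp : s ^ (k l - 1) ≠ 0 := pow_ne_zero _ hs0
  have hcp : conj s ^ (k l - 1) ≠ 0 := pow_ne_zero _ ((map_ne_zero _).2 hs0)
  show _ = m (z, W l s) * _ + A (z, W l s)
  simp only [map_inv₀, map_mul, map_natCast, map_pow]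
  rw [div_pow]
  field_simp

/-- a complex version of the sum formula -/
lemma sum_complex {ι : Type*} [Fintype ι] {V : Fin L → ℕ → ℂ}
    {x : ι → ℂ} (h : ∀ g : ℂ → ℝ, ∑ i, g (x i) = ∑ l, (μ l : ℝ) * ∑ j ∈ Finset.range (k l),
      g (V l j)) (F : ℂ → ℂ) :
    ∑ i, F (x i) = ∑ l, (μ l : ℂ) * ∑ j ∈ Finset.range (k l), F (V l j) := by
  apply Complex.ext
  · have h1 := h fun y => (F y).re
    simp only [Complex.re_sum, Complex.mul_re, Complex.natCast_re, Complex.natCast_im, zero_mul,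
      sub_zero]
    exact h1
  · have h1 := h fun y => (F y).im
    simp only [Complex.im_sum, Complex.mul_im, Complex.natCast_re, Complex.natCast_im, zero_mul,
      add_zero]
    exact h1

/-- the vertical part does not charge `ζ(z)` if `ζ` is supported near a point off `0` -/
lemma vert_zeta (H : MG2 N m A ρ Y P R) (h : Pui m A Y δ k μ W) (hδ : δ ≤ 1)
    {z₀ : ℂ} (h0 : z₀ ≠ 0) {ζ : ℂ → ℝ} (hζ : ContDiff ℝ ∞ ζ) (hc : HasCompactSupport ζ)
    (ht : tsupport ζ ⊆ ball z₀ ‖z₀‖ ∩ ball 0 δ) : ∫ p, (ζ p.1 : ℂ) ∂(R) = 0 := by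
  classical
  have hU : IsOpen (ball z₀ ‖z₀‖ ∩ ball (0 : ℂ) δ) := isOpen_ball.inter isOpen_ball
  have ht1 : tsupport ζ ⊆ ball 0 1 := ht.trans (inter_subset_right.trans (ball_subset_ball hδ))
  have h1 := quad_zeta H hζ hc ht1
  have key : ∀ l j, Integrable (fun z => QQ ζ z (Vs k W z₀ l j z) (wz (Vs k W z₀ l j) z)
      (wb (Vs k W z₀ l j) z)) ∧ ∫ z, QQ ζ z (Vs k W z₀ l j z) (wz (Vs k W z₀ l j) z)
      (wb (Vs k W z₀ l j) z) = 0 := fun l j => ibp_QQ hU (Vs_smooth h h0 l j) hζ hc ht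
  have hae : (fun z => ∑ i, QQ ζ z (Y z i) (P z i) (m (z, Y z i) * P z i + A (z, Y z i)))
      =ᵐ[volume.restrict (ball (0 : ℂ) 1)] fun z => ∑ l, (μ l : ℂ) * ∑ j ∈ Finset.range (k l),
        QQ ζ z (Vs k W z₀ l j z) (wz (Vs k W z₀ l j) z) (wb (Vs k W z₀ l j) z) := by
    have g1 := (ae_restrict_iff' measurableSet_ball).1 h.sum
    have g2 := (ae_restrict_iff' measurableSet_ball).1 h.ae_all
    have g3 := (ae_restrict_iff' measurableSet_ball).1 (h.P_eq H.toMG hδ)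
    refine ae_restrict_of_ae ?_
    filter_upwards [g1, g2, g3] with z hz1 hz2 hz3
    by_cases hzt : z ∈ tsupport ζ
    · have hzU := ht hzt
      have hzδ : z ∈ ball (0 : ℂ) δ := hzU.2
      have q1 := hz1 hzδ (fun l => lrt (k l) (rt (k l) z₀) z)
        (fun l => lrt_pow (h.one_k l) (rt_ne (h.one_k l) h0) z)
      have q2 := (hz2 hzδ).2.2
      have q3 := hz3 hzδ
      -- the function of `y`
      set pf : ℂ → ℂ := fun y => if hy : ∃ i, Y z i = y then P z hy.choose else 0 with hpf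
      have hpY : ∀ i, pf (Y z i) = P z i := by
        intro i
        have hy : ∃ i', Y z i' = Y z i := ⟨i, rfl⟩
        rw [hpf]
        simp only [hy, dif_pos]
        exact H.same z _ _ hy.choose_spec
      have q4 := sum_complex (V := fun l j => Vs k W z₀ l j z) q1
        (fun y => QQ ζ z y (pf y) (m (z, y) * pf y + A (z, y)))
      simp only [hpY] at q4
      rw [q4]
      refine Finset.sum_congr rfl fun l _ => ?_
      congr 1
      refine Finset.sum_congr rfl fun j _ => ?_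
      have hs := sj_pow (h.one_k l) h0 j z
      obtain ⟨i, hi⟩ := q2 l (sj (k l) z₀ j z) hs
      have hi' : Y z i = Vs k W z₀ l j z := hi
      obtain ⟨e1, e2⟩ := Vs_eq h h0 l j hzU
      have e3 : pf (Vs k W z₀ l j z) = wz (Vs k W z₀ l j) z := by
        rw [← hi', hpY, e1]
        exact q3 l _ hs i hi
      rw [e3, e2]
    · simp only [QQ_zero hzt, Finset.sum_const_zero, mul_zero]
  rw [integral_congr_ae hae, integral_finsetSum] at h1
  · have h2 : ∀ l ∈ (Finset.univ : Finset (Fin L)), ∫ z in ball (0 : ℂ) 1,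
        (μ l : ℂ) * ∑ j ∈ Finset.range (k l), QQ ζ z (Vs k W z₀ l j z) (wz (Vs k W z₀ l j) z)
          (wb (Vs k W z₀ l j) z) = 0 := by
      intro l _
      rw [integral_const_mul, integral_finsetSum]
      · rw [Finset.sum_eq_zero, mul_zero]
        intro j _
        rw [setIntegral_eq_integral_of_forall_compl_eq_zero, (key l j).2]
        intro z hz
        exact QQ_zero (fun h => hz (ht1 h)) _ _ _
      · intro j _
        exact (key l j).1.integrableOn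
    rw [Finset.sum_eq_zero h2, zero_add] at h1
    exact h1
  · intro l _
    exact (integrable_finsetSum _ fun j _ => (key l j).1.integrableOn).const_mul _

/-- **VERT** -/
theorem VERT (hA : ContDiffOn ℝ ∞ A (PD 2)) (hm1 : ∀ p ∈ PD 2, ‖m p‖ < 1) (hρ : ρ < 1)
    (H : MG2 N m A ρ Y P R) (h : Pui m A Y δ k μ W) : R (ball (0 : ℂ) δ ×ˢ univ) = 0 := by
  have hfin : IsFiniteMeasure R := ⟨H.Rfin⟩
  set δ' := min δ 1 with hδ'
  have h' : Pui m A Y δ' k μ W := h.mono (min_le_left _ _)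
  have hδ1 : δ' ≤ 1 := min_le_right _ _
  have h1 : R {p : ℂ × ℂ | p.1 ≠ 0 ∧ ‖p.1‖ < δ'} = 0 := by
    refine measure_null_of_locally_null _ fun p hp => ?_
    obtain ⟨hp0, hpδ⟩ := hp
    have hU : IsOpen (ball p.1 ‖p.1‖ ∩ ball (0 : ℂ) δ') := isOpen_ball.inter isOpen_ball
    have hpU : p.1 ∈ ball p.1 ‖p.1‖ ∩ ball (0 : ℂ) δ' :=
      ⟨mem_ball_self (norm_pos_iff.2 hp0), mem_ball_zero_iff.2 hpδ⟩
    obtain ⟨r, hr, hrU⟩ := Metric.nhds_basis_closedBall.mem_iff.1 (hU.mem_nhds hpU)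
    let η : ContDiffBump p.1 := ⟨r / 2, r, by positivity, by linarith⟩
    have hη := vert_zeta H h' hδ1 hp0 (ζ := (η : ℂ → ℝ)) η.contDiff η.hasCompactSupport
      (by rw [η.tsupport_eq]; exact hrU)
    have hη2 : ∫ q : ℂ × ℂ, η q.1 ∂(R) = 0 := by
      have e : ((∫ q : ℂ × ℂ, η q.1 ∂(R) : ℝ) : ℂ) = ∫ q : ℂ × ℂ, (η q.1 : ℂ) ∂(R) :=
        integral_ofReal.symm
      rw [hη] at e
      exact_mod_cast e
    have hint : Integrable (fun q : ℂ × ℂ => η q.1) R := by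
      refine Integrable.of_bound (C := 1) (η.continuous.comp continuous_fst).aestronglyMeasurable
        (Eventually.of_forall fun q => ?_)
      rw [Real.norm_of_nonneg η.nonneg]
      exact η.le_one
    have h3 := (integral_eq_zero_iff_of_nonneg (fun q => η.nonneg) hint).1 hη2
    refine ⟨ball p.1 (r / 2) ×ˢ univ, mem_nhdsWithin_of_mem_nhds
      ((isOpen_ball.prod isOpen_univ).mem_nhds ⟨mem_ball_self (by positivity), mem_univ _⟩), ?_⟩
    have h4 : ∀ᵐ q ∂(R), η q.1 = 0 := h3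
    rw [ae_iff] at h4
    refine measure_mono_null (fun q hq => ?_) h4
    show η q.1 ≠ 0
    rw [η.one_of_mem_closedBall (ball_subset_closedBall hq.1)]
    exact one_ne_zero
  have h2 := no_atom hA hm1 hρ H
  have h3 : R {p : ℂ × ℂ | ¬ (‖p.1‖ < 1 ∧ ‖p.2‖ ≤ ρ)} = 0 := ae_iff.1 H.Rsupp
  refine measure_mono_null (t := {p : ℂ × ℂ | p.1 ≠ 0 ∧ ‖p.1‖ < δ'} ∪ ({(0 : ℂ)} ×ˢ univ) ∪
    {p : ℂ × ℂ | ¬ (‖p.1‖ < 1 ∧ ‖p.2‖ ≤ ρ)}) ?_
    (measure_union_null (measure_union_null h1 h2) h3)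
  intro p hp
  have hpδ : ‖p.1‖ < δ := mem_ball_zero_iff.1 hp.1
  by_cases h5 : ‖p.1‖ < 1
  · left
    by_cases h6 : p.1 = 0
    · right
      exact ⟨h6, mem_univ _⟩
    · left
      exact ⟨h6, lt_min hpδ h5⟩
  · right
    exact fun h7 => h5 h7.1

/-- `PUI` without the vertical part -/
def PUI0_statement : Prop := ∀ (N : ℕ) (m A : ℂ × ℂ → ℂ) (ρ : ℝ) (Y P : ℂ → Fin N → ℂ)
  (R : Measure (ℂ × ℂ)),
  ContDiffOn ℝ ∞ m (PD 2) → ContDiffOn ℝ ∞ A (PD 2) → (∀ p ∈ PD 2, ‖m p‖ < 1) → ρ < 1 →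
  MG2 N m A ρ Y P R →
  ∃ δ > 0, ∃ (L : ℕ) (k μ : Fin L → ℕ) (W : Fin L → ℂ → ℂ),
    (∀ l, 1 ≤ k l ∧ 1 ≤ μ l) ∧ N = ∑ l, k l * μ l ∧
    (∀ l, ContinuousOn (W l) {s | ‖s‖ ^ k l < δ} ∧
      ContDiffOn ℝ ∞ (W l) ({s | ‖s‖ ^ k l < δ} \ {0})) ∧
    (∃ C γ : ℝ, 0 < γ ∧ ∀ l s, s ≠ 0 → ‖s‖ ^ k l < δ → ‖W l s - W l 0‖ ≤ C * ‖s‖ ^ γ ∧
      ‖fderiv ℝ (W l) s‖ ≤ C * ‖s‖ ^ (γ - 1)) ∧
    (∀ l s, s ≠ 0 → ‖s‖ ^ k l < δ →
      dbar (W l) s = m (s ^ k l, W l s) * ((starRingEnd ℂ) s / s) ^ (k l - 1) *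
        ((1 / 2 : ℂ) * (fderiv ℝ (W l) s 1 - Complex.I * fderiv ℝ (W l) s Complex.I)) +
        A (s ^ k l, W l s) * k l * (starRingEnd ℂ) s ^ (k l - 1)) ∧
    (∀ l l' s s', s ≠ 0 → ‖s‖ ^ k l < δ → s ^ k l = s' ^ k l' → W l s = W l' s' →
      l = l' ∧ s = s') ∧
    ∀ᵐ z ∂volume.restrict (ball (0 : ℂ) δ), ∀ s : Fin L → ℂ, (∀ l, s l ^ k l = z) →
      ∀ g : ℂ → ℝ, ∑ i, g (Y z i) = ∑ l, (μ l : ℝ) * ∑ j ∈ Finset.range (k l),
        g (W l (Complex.exp (2 * Real.pi * Complex.I * j / k l) * s l))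

/-- the vertical part is automatic -/
theorem PUI_of (h : PUI0_statement) : PUI_statement := by
  intro N m A ρ Y P R hm hA hm1 hρ H
  obtain ⟨δ, hδ, L, k, μ, W, h1, h2, h3, h4, h5, h6, h7⟩ := h N m A ρ Y P R hm hA hm1 hρ H
  refine ⟨δ, hδ, L, k, μ, W, ?_, h1, h2, h3, h4, h5, h6, h7⟩
  exact VERT hA hm1 hρ H
    { one_k := fun l => (h1 l).1
      one_μ := fun l => (h1 l).2
      cont := fun l => (h3 l).1
      smooth := fun l => (h3 l).2
      eq := h5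
      inj := h6
      sum := h7 }

end Vale.Agent.P247.H899
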