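import Vale.Agent.P247.H899.Push

/-!
# The complex structure of a box, Hermitian forms
-/

open scoped ContDiff Topology ComplexConjugate
open Set MeasureTheory Filter Metric

noncomputable section

namespace Vale.Agent.P247.H899

open Vale.Agent.P247.H74 Vale.Agent.P247.H574

/-! ## bilinear forms on `ℂ × ℂ` -/

/-- a bilinear form from its values -/
def bil (f : ℂ × ℂ → ℂ × ℂ → ℝ) (h1 : ∀ v w u, f (v + w) u = f v u + f w u)
    (h2 : ∀ (c : ℝ) v u, f (c • v) u = c * f v u) (h3 : ∀ v w u, f v (w + u) = f v w + f v u)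
    (h4 : ∀ (c : ℝ) v u, f v (c • u) = c * f v u) : (ℂ × ℂ) →L[ℝ] (ℂ × ℂ) →L[ℝ] ℝ :=
  LinearMap.toContinuousLinearMap
    (((LinearMap.toContinuousLinearMap : ((ℂ × ℂ) →ₗ[ℝ] ℝ) ≃ₗ[ℝ] ((ℂ × ℂ) →L[ℝ] ℝ)) :
      ((ℂ × ℂ) →ₗ[ℝ] ℝ) →ₗ[ℝ] ((ℂ × ℂ) →L[ℝ] ℝ)).comp
      (LinearMap.mk₂ ℝ f h1 (by simpa using h2) h3 (by simpa using h4)))

@[simp] lemma bil_apply (f : ℂ × ℂ → ℂ × ℂ → ℝ) (h1 h2 h3 h4) (v w : ℂ × ℂ) :
    bil f h1 h2 h3 h4 v w = f v w := rfl

lemma continuousOn_bilin {X : Type*} [TopologicalSpace X] {s : Set X}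
    {B : X → (ℂ × ℂ) →L[ℝ] (ℂ × ℂ) →L[ℝ] ℝ}
    (h : ∀ v w, ContinuousOn (fun x => B x v w) s) : ContinuousOn B s := by
  rw [continuousOn_clm_apply]
  intro v
  rw [continuousOn_clm_apply]
  intro w
  exact h v w

variable {D : Data} (b : Box D)

/-- the values of the (1,0)-forms `dz + m dz̄` and `dy - A dz̄` -/
def t1 (p v : ℂ × ℂ) : ℂ := v.1 + b.m p * conj v.1
def t2 (p v : ℂ × ℂ) : ℂ := v.2 - b.A p * conj v.1

/-- the vector with given values -/
def sol (p : ℂ × ℂ) (s t : ℂ) : ℂ × ℂ :=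
  ((s - b.m p * conj s) / (1 - (‖b.m p‖ : ℂ) ^ 2),
    t + b.A p * conj ((s - b.m p * conj s) / (1 - (‖b.m p‖ : ℂ) ^ 2)))

lemma one_sub_pos {p : ℂ × ℂ} (hp : p ∈ PD 2) : 0 < 1 - ‖b.m p‖ ^ 2 := by
  have := b.m_lt p hp
  have h0 := norm_nonneg (b.m p)
  nlinarith

lemma one_sub_ne {p : ℂ × ℂ} (hp : p ∈ PD 2) : (1 - (‖b.m p‖ : ℂ) ^ 2) ≠ 0 := by
  have h := (one_sub_pos b hp).ne'
  intro h0
  apply h
  have : ((1 - ‖b.m p‖ ^ 2 : ℝ) : ℂ) = 0 := by push_cast; exact h0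
  exact_mod_cast this

lemma m_mul_conj (p : ℂ × ℂ) : b.m p * conj (b.m p) = (‖b.m p‖ : ℂ) ^ 2 := by
  rw [Complex.mul_conj, Complex.normSq_eq_norm_sq]; push_cast; rfl

lemma t1_sol {p : ℂ × ℂ} (hp : p ∈ PD 2) (s t : ℂ) : t1 b p (sol b p s t) = s := by
  have h := one_sub_ne b hp
  have hc : conj (1 - (‖b.m p‖ : ℂ) ^ 2) = 1 - (‖b.m p‖ : ℂ) ^ 2 := by
    simp [map_sub, map_pow, Complex.conj_ofReal]
  simp only [t1, sol, map_div₀, map_sub, map_mul, Complex.conj_conj]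
  rw [show (conj (1 : ℂ) - conj ((‖b.m p‖ : ℂ) ^ 2)) = 1 - (‖b.m p‖ : ℂ) ^ 2 by
    rw [← map_sub]; exact hc]
  field_simp
  have := m_mul_conj b p
  linear_combination (-s) * this

lemma t2_sol (p : ℂ × ℂ) (s t : ℂ) : t2 b p (sol b p s t) = t := by
  simp only [t2, sol]; ring

lemma t_inj {p : ℂ × ℂ} (hp : p ∈ PD 2) {v w : ℂ × ℂ} (h1 : t1 b p v = t1 b p w)
    (h2 : t2 b p v = t2 b p w) : v = w := by
  have h3 : v.1 = w.1 := by
    have h4 : (v.1 - w.1) = - (b.m p * conj (v.1 - w.1)) := by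
      simp only [t1] at h1
      rw [map_sub]
      linear_combination h1
    have h5 : ‖v.1 - w.1‖ = ‖b.m p‖ * ‖v.1 - w.1‖ := by
      conv_lhs => rw [h4]
      rw [norm_neg, norm_mul, Complex.norm_conj]
    have h6 := b.m_lt p hp
    have h7 : ‖v.1 - w.1‖ = 0 := by nlinarith [norm_nonneg (v.1 - w.1)]
    exact sub_eq_zero.1 (norm_eq_zero.1 h7)
  refine Prod.ext h3 ?_
  simp only [t2] at h2
  rw [h3] at h2
  linear_combination h2

lemma J_vert {p : ℂ × ℂ} (hp : p ∈ PD 2) (y : ℂ) :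
    D.J (b.Θ p) (fderiv ℝ b.Θ p (0, y)) = fderiv ℝ b.Θ p (0, Complex.I * y) := by
  have e1 : ((0 : ℂ), y) = y.re • ((0 : ℂ), (1 : ℂ)) + y.im • ((0 : ℂ), Complex.I) := by
    ext <;> simp
  have e2 : ((0 : ℂ), Complex.I * y) =
      y.re • ((0 : ℂ), Complex.I) + y.im • (-((0 : ℂ), (1 : ℂ))) := by
    refine Prod.ext (by simp) (Complex.ext ?_ ?_) <;> simp
  have h := b.hol p hp
  have hJ : D.J (b.Θ p) (fderiv ℝ b.Θ p (0, Complex.I)) = -(fderiv ℝ b.Θ p (0, 1)) := by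
    rw [h, D.J_sq]
  rw [e1, e2]
  simp only [map_add, map_smul, map_neg]
  rw [hJ, ← h]

/-- `J` in the box -/
lemma J_of_t {p : ℂ × ℂ} (hp : p ∈ PD 2) {v w : ℂ × ℂ}
    (h1 : t1 b p w = Complex.I * t1 b p v) (h2 : t2 b p w = Complex.I * t2 b p v) :
    D.J (b.Θ p) (fderiv ℝ b.Θ p v) = fderiv ℝ b.Θ p w := by
  set L := fderiv ℝ b.Θ p with hL
  obtain ⟨ξ₀, hξ₀⟩ := (b.graph p hp 0 (b.A p)).1 (by ring) v.1
  obtain ⟨ξ₁, hξ₁⟩ := (b.graph p hp 1 (b.m p + b.A p)).1 (by ring) v.1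
  have hv := J_vert b hp (v.1 + b.m p * conj v.1)
  rw [← hL] at hξ₀ hξ₁ hv
  have e1 : ((0 : ℂ), v.1 + b.m p * conj v.1) =
      (v.1, 1 * v.1 + (b.m p + b.A p) * conj v.1) - (v.1, 0 * v.1 + b.A p * conj v.1) := by
    ext <;> simp
    ring
  rw [e1, map_sub, map_sub, hξ₀, hξ₁, ← map_sub] at hv
  have hinj := (b.imm p hp).1 hv
  rw [Prod.mk_sub_mk, Prod.mk.injEq] at hinj
  have hξ : ξ₁ = ξ₀ := sub_eq_zero.1 hinj.1
  have hξ' := hinj.2
  rw [hξ] at hξ'
  have e2 : v = (v.1, 0 * v.1 + b.A p * conj v.1) + (0, v.2 - b.A p * conj v.1) := by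
    ext <;> simp
  have h3 : D.J (b.Θ p) (L v) =
      L ((ξ₀, 0 * ξ₀ + b.A p * conj ξ₀) + (0, Complex.I * (v.2 - b.A p * conj v.1))) := by
    conv_lhs => rw [e2]
    rw [map_add, map_add, hξ₀, hL, J_vert b hp, map_add]
  rw [h3]
  congr 1
  refine t_inj b hp ?_ ?_
  · rw [h1]
    simp only [t1, Prod.fst_add, add_zero]
    linear_combination hξ'
  · rw [h2]
    simp only [t2, Prod.fst_add, Prod.snd_add, add_zero]
    ring

/-- `J` in the box, existence form -/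
lemma exists_J {p : ℂ × ℂ} (hp : p ∈ PD 2) (v : ℂ × ℂ) :
    ∃ w, t1 b p w = Complex.I * t1 b p v ∧ t2 b p w = Complex.I * t2 b p v ∧
      D.J (b.Θ p) (fderiv ℝ b.Θ p v) = fderiv ℝ b.Θ p w := by
  refine ⟨sol b p (Complex.I * t1 b p v) (Complex.I * t2 b p v), t1_sol b hp _ _, t2_sol b p _ _, ?_⟩
  exact J_of_t b hp (t1_sol b hp _ _) (t2_sol b p _ _)

/-! ## Hermitian forms -/

/-- the real (1,1)-form with Hermitian matrix `(a, c; c̄, d)` -/
def Hm (p : ℂ × ℂ) (a : ℝ) (c : ℂ) (d : ℝ) : (ℂ × ℂ) →L[ℝ] (ℂ × ℂ) →L[ℝ] ℝ :=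
  bil (fun v w => a * (conj (t1 b p v) * t1 b p w).im + d * (conj (t2 b p v) * t2 b p w).im +
    (c * (conj (t1 b p v) * t2 b p w - conj (t1 b p w) * t2 b p v)).im)
    (by
      intro v w u
      simp only [t1, t2, Prod.fst_add, Prod.snd_add, map_add, map_mul, map_sub]
      rw [← sub_eq_zero]
      simp only [Complex.mul_im, Complex.add_im, Complex.sub_im, Complex.add_re, Complex.sub_re,
        Complex.mul_re, Complex.conj_re, Complex.conj_im]
      ring)
    (by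
      intro r v u
      simp only [t1, t2, Prod.smul_fst, Prod.smul_snd, Complex.real_smul, map_mul, map_add, map_sub,
        Complex.conj_ofReal]
      rw [← sub_eq_zero]
      simp only [Complex.mul_im, Complex.add_im, Complex.sub_im, Complex.add_re, Complex.sub_re,
        Complex.mul_re, Complex.conj_re, Complex.conj_im, Complex.ofReal_re, Complex.ofReal_im]
      ring)
    (by
      intro v w u
      simp only [t1, t2, Prod.fst_add, Prod.snd_add, map_add, map_mul, map_sub]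
      rw [← sub_eq_zero]
      simp only [Complex.mul_im, Complex.add_im, Complex.sub_im, Complex.add_re, Complex.sub_re,
        Complex.mul_re, Complex.conj_re, Complex.conj_im]
      ring)
    (by
      intro r v u
      simp only [t1, t2, Prod.smul_fst, Prod.smul_snd, Complex.real_smul, map_mul, map_add, map_sub,
        Complex.conj_ofReal]
      rw [← sub_eq_zero]
      simp only [Complex.mul_im, Complex.add_im, Complex.sub_im, Complex.add_re, Complex.sub_re,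
        Complex.mul_re, Complex.conj_re, Complex.conj_im, Complex.ofReal_re, Complex.ofReal_im]
      ring)

lemma Hm_apply (p : ℂ × ℂ) (a : ℝ) (c : ℂ) (d : ℝ) (v w : ℂ × ℂ) :
    Hm b p a c d v w = a * (conj (t1 b p v) * t1 b p w).im + d * (conj (t2 b p v) * t2 b p w).im +
      (c * (conj (t1 b p v) * t2 b p w - conj (t1 b p w) * t2 b p v)).im := rfl

lemma Hm_self (p : ℂ × ℂ) (a : ℝ) (c : ℂ) (d : ℝ) (v : ℂ × ℂ) : Hm b p a c d v v = 0 := by
  rw [Hm_apply, sub_self, mul_zero]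
  simp only [Complex.mul_im, Complex.conj_re, Complex.conj_im, Complex.zero_im]
  ring

/-- the value on a complex line -/
lemma Hm_J (p : ℂ × ℂ) (a : ℝ) (c : ℂ) (d : ℝ) {v w : ℂ × ℂ}
    (h1 : t1 b p w = Complex.I * t1 b p v) (h2 : t2 b p w = Complex.I * t2 b p v) :
    Hm b p a c d v w = a * ‖t1 b p v‖ ^ 2 + d * ‖t2 b p v‖ ^ 2 +
      2 * (c * (conj (t1 b p v) * t2 b p v)).re := by
  rw [Hm_apply, h1, h2, ← Complex.normSq_eq_norm_sq, ← Complex.normSq_eq_norm_sq]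
  simp only [map_mul, Complex.conj_I, Complex.mul_im, Complex.mul_re, Complex.sub_im,
    Complex.sub_re, Complex.conj_re, Complex.conj_im, Complex.I_re, Complex.I_im, Complex.neg_re,
    Complex.neg_im, Complex.normSq_apply]
  ring

lemma Hm_add (p : ℂ × ℂ) (a a' : ℝ) (c c' : ℂ) (d d' : ℝ) :
    Hm b p (a + a') (c + c') (d + d') = Hm b p a c d + Hm b p a' c' d' := by
  refine ContinuousLinearMap.ext fun v => ContinuousLinearMap.ext fun w => ?_
  simp only [Hm_apply, add_apply, add_mul, Complex.add_im]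
  ring

lemma Hm_smul (p : ℂ × ℂ) (r a : ℝ) (c : ℂ) (d : ℝ) :
    Hm b p (r * a) (r * c) (r * d) = r • Hm b p a c d := by
  refine ContinuousLinearMap.ext fun v => ContinuousLinearMap.ext fun w => ?_
  simp only [Hm_apply, smul_apply, smul_eq_mul, mul_assoc,
    Complex.im_ofReal_mul]
  ring

lemma Hm_zero (p : ℂ × ℂ) : Hm b p 0 0 0 = 0 := by
  refine ContinuousLinearMap.ext fun v => ContinuousLinearMap.ext fun w => ?_
  simp [Hm_apply]

/-- the first diagonal form is a multiple of the area form of the `z`-plane -/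
lemma Hm_a (p : ℂ × ℂ) (a : ℝ) (v w : ℂ × ℂ) :
    Hm b p a 0 0 v w = a * (1 - ‖b.m p‖ ^ 2) * (v.1.re * w.1.im - v.1.im * w.1.re) := by
  rw [Hm_apply, ← Complex.normSq_eq_norm_sq]
  simp only [t1, map_add, map_mul, Complex.conj_conj, Complex.mul_im, Complex.mul_re,
    Complex.add_re, Complex.add_im, Complex.conj_re, Complex.conj_im, Complex.normSq_apply,
    zero_mul, Complex.zero_im]
  ring

lemma continuousOn_Hm {a d : ℂ × ℂ → ℝ} {c : ℂ × ℂ → ℂ} (ha : ContinuousOn a (PD 2))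
    (hc : ContinuousOn c (PD 2)) (hd : ContinuousOn d (PD 2)) :
    ContinuousOn (fun p => Hm b p (a p) (c p) (d p)) (PD 2) := by
  refine continuousOn_bilin fun v w => ?_
  have hm := b.m_smooth.continuousOn
  have hA := b.A_smooth.continuousOn
  have h1 : ∀ v : ℂ × ℂ, ContinuousOn (fun p => t1 b p v) (PD 2) := fun v =>
    continuousOn_const.add (hm.mul continuousOn_const)
  have h2 : ∀ v : ℂ × ℂ, ContinuousOn (fun p => t2 b p v) (PD 2) := fun v =>
    continuousOn_const.sub (hA.mul continuousOn_const)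
  have hcj : ∀ {g : ℂ × ℂ → ℂ}, ContinuousOn g (PD 2) →
      ContinuousOn (fun p => conj (g p)) (PD 2) := fun hg =>
    Complex.continuous_conj.comp_continuousOn hg
  simp only [Hm_apply]
  exact ((ha.mul (Complex.continuous_im.comp_continuousOn ((hcj (h1 v)).mul (h1 w)))).add
    (hd.mul (Complex.continuous_im.comp_continuousOn ((hcj (h2 v)).mul (h2 w))))).add
    (Complex.continuous_im.comp_continuousOn (hc.mul
      (((hcj (h1 v)).mul (h2 w)).sub ((hcj (h1 w)).mul (h2 v)))))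

/-- the area form of the `z`-plane -/
def lam : (ℂ × ℂ) →L[ℝ] (ℂ × ℂ) →L[ℝ] ℝ :=
  bil (fun v w => v.1.re * w.1.im - v.1.im * w.1.re)
    (by intro v w u; simp; ring) (by intro r v u; simp; ring)
    (by intro v w u; simp; ring) (by intro r v u; simp; ring)

lemma lam_apply (v w : ℂ × ℂ) : lam v w = v.1.re * w.1.im - v.1.im * w.1.re := rfl

/-- existence of the push-forward of `f dx ∧ dy` -/
theorem exists_isPush {f : ℂ × ℂ → ℝ} (hf : Continuous f) (hfc : HasCompactSupport f)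
    (hfs : tsupport f ⊆ PD 2) : IsPush b f (push2 b fun p => f p • lam) ∧
      tsupport (push2 b fun p => f p • lam) ⊆ b.Θ '' tsupport f := by
  have h0 : ∀ p, p ∉ tsupport f → f p • lam = 0 := fun p hp => by
    have h := image_eq_zero_of_notMem_tsupport hp
    refine ContinuousLinearMap.ext fun v => ContinuousLinearMap.ext fun w => ?_
    simp [h]
  obtain ⟨h1, h2⟩ := push2_cf b (β := fun p => f p • lam)
    (hf.smul continuous_const).continuousOn hfc hfs h0 (by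
      intro p _ v
      simp only [smul_apply, lam_apply, smul_eq_mul]
      ring)
  refine ⟨⟨h1, fun x hx => push2_off b _ hx, fun p hp v w => ?_⟩, h2⟩
  rw [push2_apply b _ hp]
  simp only [smul_apply, lam_apply, smul_eq_mul]

end Vale.Agent.P247.H899
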