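import Mathlib

/-!
# Integer valued functions of bounded variation in the plane

If `N : ℂ → ℕ` is integrable with bounded support and its distributional partial derivatives are
measures of mass at most `V`, then `∫ N ≤ C V ^ 2` with a universal constant.
-/

open scoped ContDiff Convolution
open Set MeasureTheory Filter Topology Metric

noncomputable section

namespace Vale.Agent.P247.H899

/-- The weak derivative of `f` in direction `v` is a measure of mass at most `V`. -/
def BVdir (f : ℂ → ℝ) (v : ℂ) (V : ℝ) : Prop :=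
  ∀ g : ℂ → ℝ, ContDiff ℝ ∞ g → HasCompactSupport g → (∀ z, |g z| ≤ 1) →
    |∫ z, f z * fderiv ℝ g z v| ≤ V

lemma BVdir.nonneg {f : ℂ → ℝ} {v : ℂ} {V : ℝ} (h : BVdir f v V) : 0 ≤ V := by
  have := h (fun _ => 0) contDiff_const HasCompactSupport.zero (by simp)
  exact le_trans (abs_nonneg _) this

/-- mollification does not increase the variation -/
lemma BVdir.conv {f : ℂ → ℝ} {v : ℂ} {V : ℝ} (h : BVdir f v V) (hf : Integrable f)
    (φ : ContDiffBump (0 : ℂ)) :
    BVdir (φ.normed volume ⋆[ContinuousLinearMap.lsmul ℝ ℝ, volume] f) v V := by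
  intro g hg hgc hg1
  have hρi : Integrable (φ.normed (volume : Measure ℂ)) := φ.integrable_normed
  have hdg : Continuous fun x => fderiv ℝ g x v :=
    (hg.continuous_fderiv (by simp)).clm_apply continuous_const
  have hdgc : HasCompactSupport fun x => fderiv ℝ g x v :=
    (hgc.fderiv ℝ).comp_left (g := fun L : ℂ →L[ℝ] ℝ => L v) (by simp)
  obtain ⟨B, hB⟩ := hdgc.exists_bound_of_continuous hdg
  have hprod : Integrable (fun p : ℂ × ℂ =>
      (φ.normed volume p.2 * f (p.1 - p.2)) * fderiv ℝ g p.1 v) (volume.prod volume) := by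
    have h1 : Integrable (fun p : ℂ × ℂ => φ.normed volume p.2 * f (p.1 - p.2))
        (volume.prod volume) := by
      have := hρi.convolution_integrand (ContinuousLinearMap.lsmul ℝ ℝ) hf
      simpa using this
    refine h1.mul_bdd (c := B) ?_ ?_
    · exact (hdg.comp continuous_fst).aestronglyMeasurable
    · exact Eventually.of_forall fun p => hB p.1
  have hE : (∫ z, (φ.normed volume ⋆[ContinuousLinearMap.lsmul ℝ ℝ, volume] f) z *
      fderiv ℝ g z v) = ∫ t, φ.normed volume t * ∫ y, f y * fderiv ℝ g (y + t) v := by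
    calc (∫ z, (φ.normed volume ⋆[ContinuousLinearMap.lsmul ℝ ℝ, volume] f) z *
          fderiv ℝ g z v)
        = ∫ z, ∫ t, (φ.normed volume t * f (z - t)) * fderiv ℝ g z v := by
          refine integral_congr_ae (Eventually.of_forall fun z => ?_)
          simp only [convolution_def, ContinuousLinearMap.lsmul_apply, smul_eq_mul]
          rw [integral_mul_const]
      _ = ∫ t, ∫ z, (φ.normed volume t * f (z - t)) * fderiv ℝ g z v :=
          integral_integral_swap hprod
      _ = ∫ t, φ.normed volume t * ∫ y, f y * fderiv ℝ g (y + t) v := by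
          refine integral_congr_ae (Eventually.of_forall fun t => ?_)
          simp only
          rw [← integral_const_mul,
            ← integral_sub_right_eq_self (fun y => φ.normed volume t *
              (f y * fderiv ℝ g (y + t) v)) t]
          refine integral_congr_ae (Eventually.of_forall fun z => ?_)
          simp only [sub_add_cancel]
          ring
  rw [hE]
  have hin : ∀ t : ℂ, |∫ y, f y * fderiv ℝ g (y + t) v| ≤ V := by
    intro t
    have := h (fun y => g (y + t)) (hg.comp (contDiff_id.add contDiff_const))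
      (hgc.comp_homeomorph (Homeomorph.addRight t)) (fun z => hg1 _)
    have h2 : ∀ y, fderiv ℝ (fun y => g (y + t)) y v = fderiv ℝ g (y + t) v := by
      intro y; rw [fderiv_comp_add_right]
    simpa only [h2] using this
  have hV := h.nonneg
  calc |∫ t, φ.normed volume t * ∫ y, f y * fderiv ℝ g (y + t) v|
      ≤ ∫ t, |φ.normed volume t * ∫ y, f y * fderiv ℝ g (y + t) v| := by
        simpa [Real.norm_eq_abs] using norm_integral_le_integral_norm
          (fun t => φ.normed volume t * ∫ y, f y * fderiv ℝ g (y + t) v)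
    _ ≤ ∫ t, φ.normed volume t * V := by
        refine integral_mono_of_nonneg (Eventually.of_forall fun t => abs_nonneg _)
          (hρi.mul_const V) (Eventually.of_forall fun t => ?_)
        simp only [abs_mul, abs_of_nonneg (φ.nonneg_normed t)]
        exact mul_le_mul_of_nonneg_left (hin t) (φ.nonneg_normed t)
    _ = V := by rw [integral_mul_const, φ.integral_normed, one_mul]

/-- for smooth functions the mass of the derivative is its `L¹` norm -/
lemma BVdir.integral_abs_le {u : ℂ → ℝ} {v : ℂ} {V : ℝ} (h : BVdir u v V)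
    (hu : ContDiff ℝ ∞ u) (huc : HasCompactSupport u) :
    ∫ z, |fderiv ℝ u z v| ≤ V := by
  have hd : ContDiff ℝ ∞ fun x => fderiv ℝ u x v :=
    (hu.fderiv_right (m := ∞) (by simp)).clm_apply contDiff_const
  have hdc : HasCompactSupport fun x => fderiv ℝ u x v :=
    (huc.fderiv ℝ).comp_left (g := fun L : ℂ →L[ℝ] ℝ => L v) (by simp)
  set w : ℂ → ℝ := fun x => fderiv ℝ u x v with hw
  have hwi : Integrable w := hd.continuous.integrable_of_hasCompactSupport hdc
  -- test with w / sqrt (w^2 + δ^2)
  have key : ∀ δ : ℝ, 0 < δ → ∫ z, w z * (w z / Real.sqrt (w z ^ 2 + δ ^ 2)) ≤ V := by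
    intro δ hδ
    have hpos : ∀ z, 0 < w z ^ 2 + δ ^ 2 := fun z => by positivity
    set g : ℂ → ℝ := fun z => w z / Real.sqrt (w z ^ 2 + δ ^ 2) with hg
    have hgs : ContDiff ℝ ∞ g := by
      refine hd.div ?_ fun z => (Real.sqrt_pos.2 (hpos z)).ne'
      exact ((hd.pow 2).add contDiff_const).sqrt fun z => (hpos z).ne'
    have hgc : HasCompactSupport g := by
      refine hdc.mono' fun z hz => ?_
      simp only [hg, Function.mem_support, ne_eq] at hz
      refine subset_closure ?_
      rw [Function.mem_support]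
      intro h0; apply hz
      have h0' : w z = 0 := h0
      rw [h0']; simp
    have hg1 : ∀ z, |g z| ≤ 1 := by
      intro z
      simp only [hg, abs_div, abs_of_pos (Real.sqrt_pos.2 (hpos z))]
      rw [div_le_one (Real.sqrt_pos.2 (hpos z))]
      apply Real.abs_le_sqrt
      nlinarith [sq_nonneg δ]
    have h1 := h g hgs hgc hg1
    have hdiffu : Differentiable ℝ u := hu.differentiable (by simp)
    have hdiffg : Differentiable ℝ g := hgs.differentiable (by simp)
    have hug : (∫ z, u z * fderiv ℝ g z v) = -∫ z, w z * g z := by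
      have h2 := integral_mul_fderiv_eq_neg_fderiv_mul_of_integrable (μ := (volume : Measure ℂ))
        (f := u) (g := g) (v := v) ?_ ?_ ?_ (fun x _ => hdiffu x) (fun x _ => hdiffg x)
      · simpa [hw] using h2
      · refine (Continuous.integrable_of_hasCompactSupport ?_ ?_)
        · exact (hd.continuous.mul hgs.continuous)
        · exact hgc.mul_left
      · refine (Continuous.integrable_of_hasCompactSupport ?_ ?_)
        · exact hu.continuous.mul ((hgs.continuous_fderiv (by simp)).clm_apply continuous_const)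
        · exact huc.mul_right
      · refine (Continuous.integrable_of_hasCompactSupport ?_ ?_)
        · exact hu.continuous.mul hgs.continuous
        · exact huc.mul_right
    rw [hug, abs_neg] at h1
    exact le_trans (le_abs_self _) h1
  -- |w| ≤ w²/sqrt(w²+δ²) + δ on the support
  obtain ⟨K, hKc, hK⟩ : ∃ K, IsCompact K ∧ ∀ z, z ∉ K → w z = 0 :=
    ⟨tsupport w, hdc, fun z hz => image_eq_zero_of_notMem_tsupport hz⟩
  have hle : ∀ δ : ℝ, 0 < δ → ∫ z, |w z| ≤ V + δ * (volume K).toReal := by
    intro δ hδ
    have hpos : ∀ z, 0 < w z ^ 2 + δ ^ 2 := fun z => by positivity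
    have hKm : MeasurableSet K := hKc.measurableSet
    have hKf : volume K ≠ ⊤ := hKc.measure_lt_top.ne
    have hq : Integrable fun z => w z * (w z / Real.sqrt (w z ^ 2 + δ ^ 2)) := by
      refine (Continuous.integrable_of_hasCompactSupport ?_ ?_)
      · refine hd.continuous.mul (hd.continuous.div ?_ fun z => (Real.sqrt_pos.2 (hpos z)).ne')
        exact ((hd.continuous.pow 2).add continuous_const).sqrt
      · exact hdc.mul_right
    have h3 : ∫ z, |w z| ≤ ∫ z, (w z * (w z / Real.sqrt (w z ^ 2 + δ ^ 2)) +
        K.indicator (fun _ => δ) z) := by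
      refine integral_mono hwi.abs (hq.add ?_) fun z => ?_
      · exact (integrable_indicator_iff hKm).2 (integrableOn_const hKf)
      · by_cases hz : z ∈ K
        · simp only [indicator_of_mem hz]
          have hs := Real.sqrt_pos.2 (hpos z)
          have hsq := Real.sq_sqrt (hpos z).le
          have h4 : |w z| * Real.sqrt (w z ^ 2 + δ ^ 2) ≤
              w z * w z + δ * Real.sqrt (w z ^ 2 + δ ^ 2) := by
            have h5 : Real.sqrt (w z ^ 2 + δ ^ 2) ≤ |w z| + δ := by
              rw [Real.sqrt_le_left (by positivity)]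
              have := abs_nonneg (w z)
              nlinarith [sq_abs (w z), mul_nonneg this hδ.le]
            have h6 : |w z| ≤ Real.sqrt (w z ^ 2 + δ ^ 2) :=
              Real.abs_le_sqrt (by nlinarith [sq_nonneg δ])
            have h7 : w z * w z = |w z| * |w z| := (abs_mul_abs_self _).symm
            rw [h7]
            nlinarith [abs_nonneg (w z), mul_nonneg (abs_nonneg (w z)) (sub_nonneg.2 h5),
              mul_nonneg hδ.le (sub_nonneg.2 h6)]
          have h8 : |w z| ≤ w z * w z / Real.sqrt (w z ^ 2 + δ ^ 2) + δ := by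
            rw [← sub_le_iff_le_add, le_div_iff₀ hs]
            nlinarith
          rw [mul_div_assoc] at h8
          exact h8
        · rw [indicator_of_notMem hz, hK z hz]; simp
    rw [integral_add hq ((integrable_indicator_iff hKm).2 (integrableOn_const hKf)),
      integral_indicator hKm, setIntegral_const, smul_eq_mul, mul_comm] at h3
    exact le_trans h3 (add_le_add (key δ hδ) (by rw [Measure.real, mul_comm]))
  refine le_of_forall_pos_le_add fun ε hε => ?_
  have hk : 0 ≤ (volume K).toReal := ENNReal.toReal_nonneg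
  refine le_trans (hle (ε / ((volume K).toReal + 1)) (by positivity)) ?_
  gcongr
  rw [div_mul_eq_mul_div, div_le_iff₀ (by positivity)]
  nlinarith

/-- the constant of the Gagliardo-Nirenberg-Sobolev inequality in the plane -/
def cGN : ℝ := ((MeasureTheory.eLpNormLESNormFDerivOneConst (volume : Measure ℂ) 2 : NNReal) : ℝ)

lemma cGN_nonneg : 0 ≤ cGN := NNReal.coe_nonneg _

lemma opNorm_le (L : ℂ →L[ℝ] ℝ) : ‖L‖ ≤ |L 1| + |L Complex.I| := by
  refine L.opNorm_le_bound (by positivity) fun z => ?_
  have hz : L z = z.re * L 1 + z.im * L Complex.I := by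
    conv_lhs => rw [← Complex.re_add_im z]
    rw [map_add, mul_comm (z.im : ℂ) Complex.I]
    have e1 : ((z.re : ℝ) : ℂ) = z.re • (1 : ℂ) := by simp
    have e2 : Complex.I * (z.im : ℂ) = z.im • Complex.I := by
      rw [Complex.real_smul, mul_comm]
    rw [e1, e2, map_smul, map_smul]
    simp
  rw [hz, Real.norm_eq_abs]
  calc |z.re * L 1 + z.im * L Complex.I| ≤ |z.re * L 1| + |z.im * L Complex.I| := abs_add_le _ _
    _ = |z.re| * |L 1| + |z.im| * |L Complex.I| := by rw [abs_mul, abs_mul]
    _ ≤ ‖z‖ * |L 1| + ‖z‖ * |L Complex.I| := by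
        gcongr
        · exact Complex.abs_re_le_norm z
        · exact Complex.abs_im_le_norm z
    _ = (|L 1| + |L Complex.I|) * ‖z‖ := by ring

lemma gns {u : ℂ → ℝ} (hu : ContDiff ℝ ∞ u) (huc : HasCompactSupport u) {V W : ℝ}
    (h1 : ∫ z, |fderiv ℝ u z 1| ≤ V) (h2 : ∫ z, |fderiv ℝ u z Complex.I| ≤ W) :
    ∫ z, u z ^ 2 ≤ (cGN * (V + W)) ^ 2 := by
  have hp : NNReal.HolderConjugate (Module.finrank ℝ ℂ : ℕ) 2 := by
    rw [Complex.finrank_real_complex]
    exact (NNReal.holderConjugate_iff).2 ⟨by norm_num, by norm_num⟩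
  have hg := MeasureTheory.eLpNorm_le_eLpNorm_fderiv_one (μ := (volume : Measure ℂ))
    (hu.of_le (by simp)) huc hp
  have hV : 0 ≤ V := le_trans (integral_nonneg fun z => abs_nonneg _) h1
  have hW : 0 ≤ W := le_trans (integral_nonneg fun z => abs_nonneg _) h2
  have hdi : ∀ v : ℂ, Integrable fun x => |fderiv ℝ u x v| := by
    intro v
    refine (Continuous.integrable_of_hasCompactSupport ?_ ?_).abs
    · exact (hu.continuous_fderiv (by simp)).clm_apply continuous_const
    · exact (huc.fderiv ℝ).comp_left (g := fun L : ℂ →L[ℝ] ℝ => L v) (by simp)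
  have hfd : eLpNorm (fderiv ℝ u) 1 volume ≤ ENNReal.ofReal (V + W) := by
    rw [eLpNorm_one_eq_lintegral_enorm]
    calc ∫⁻ x, ‖fderiv ℝ u x‖ₑ
        ≤ ∫⁻ x, ENNReal.ofReal (|fderiv ℝ u x 1| + |fderiv ℝ u x Complex.I|) := by
          refine lintegral_mono fun x => ?_
          rw [← ofReal_norm]
          exact ENNReal.ofReal_le_ofReal (opNorm_le _)
      _ = ENNReal.ofReal (∫ x, (|fderiv ℝ u x 1| + |fderiv ℝ u x Complex.I|)) := by
          have hs : Integrable fun x => |fderiv ℝ u x 1| + |fderiv ℝ u x Complex.I| :=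
            (hdi 1).add (hdi Complex.I)
          rw [← ofReal_integral_eq_lintegral_ofReal hs
            (Eventually.of_forall fun x => by positivity)]
      _ ≤ ENNReal.ofReal (V + W) := by
          apply ENNReal.ofReal_le_ofReal
          rw [integral_add (hdi 1) (hdi Complex.I)]
          exact add_le_add h1 h2
  have h3 : eLpNorm u 2 volume ≤ ENNReal.ofReal (cGN * (V + W)) := by
    refine le_trans (by simpa using hg) ?_
    rw [ENNReal.ofReal_mul cGN_nonneg]
    refine mul_le_mul' ?_ hfd
    rw [cGN, ENNReal.ofReal_coe_nnreal]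
  have hui : MemLp u 2 volume := hu.continuous.memLp_of_hasCompactSupport huc
  have h4 : ENNReal.ofReal (∫ z, u z ^ 2) = eLpNorm u 2 volume ^ 2 := by
    rw [eLpNorm_eq_lintegral_rpow_enorm_toReal (by norm_num) (by norm_num)]
    rw [ofReal_integral_eq_lintegral_ofReal hui.integrable_sq
      (Eventually.of_forall fun x => by positivity)]
    rw [← ENNReal.rpow_natCast, ← ENNReal.rpow_mul]
    norm_num
    refine lintegral_congr fun x => ?_
    rw [← ofReal_norm, ← ENNReal.ofReal_pow (norm_nonneg _), Real.norm_eq_abs, sq_abs]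
  have h5 : ENNReal.ofReal (∫ z, u z ^ 2) ≤ ENNReal.ofReal ((cGN * (V + W)) ^ 2) := by
    rw [h4, ENNReal.ofReal_pow (mul_nonneg cGN_nonneg (add_nonneg hV hW))]
    gcongr
  exact (ENNReal.ofReal_le_ofReal_iff (by positivity)).1 h5

/-- Main inequality: integer valued functions of bounded variation in the plane. -/
theorem integral_le_of_bv {N : ℂ → ℕ} {V W R : ℝ} (hN : Integrable fun z => (N z : ℝ))
    (hR : ∀ z, R < ‖z‖ → N z = 0) (h1 : BVdir (fun z => (N z : ℝ)) 1 V)
    (h2 : BVdir (fun z => (N z : ℝ)) Complex.I W) :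
    ∫ z, (N z : ℝ) ≤ (cGN * (V + W)) ^ 2 := by
  set f : ℂ → ℝ := fun z => (N z : ℝ) with hf
  -- mollifiers
  let φ : ℕ → ContDiffBump (0 : ℂ) := fun n =>
    ⟨1 / (2 * ((n : ℝ) + 1)), 1 / ((n : ℝ) + 1), by positivity, by
      apply one_div_lt_one_div_of_lt (by positivity)
      have : (0 : ℝ) < (n : ℝ) + 1 := by positivity
      linarith⟩
  have hout : ∀ n, (φ n).rOut = 1 / ((n : ℝ) + 1) := fun n => rfl
  have hin : ∀ n, (φ n).rIn = 1 / (2 * ((n : ℝ) + 1)) := fun n => rfl
  have hto : Tendsto (fun n => (φ n).rOut) atTop (𝓝 0) := by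
    simp only [hout]; exact tendsto_one_div_add_atTop_nhds_zero_nat
  have hae := ContDiffBump.ae_convolution_tendsto_right_of_locallyIntegrable (μ := (volume : Measure ℂ))
    (φ := φ) (l := atTop) (K := 2) hto (Eventually.of_forall fun n => by
      rw [hout, hin]; apply le_of_eq; field_simp) hN.locallyIntegrable
  have hfc : HasCompactSupport f := by
    refine HasCompactSupport.intro (isCompact_closedBall (0 : ℂ) R) fun z hz => ?_
    have : R < ‖z‖ := by simpa using hz
    simp [hf, hR z this]
  set u : ℕ → ℂ → ℝ := fun n => (φ n).normed volume ⋆[ContinuousLinearMap.lsmul ℝ ℝ, volume] f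
    with hu
  have hus : ∀ n, ContDiff ℝ ∞ (u n) := fun n =>
    HasCompactSupport.contDiff_convolution_left (n := ⊤) _ (φ n).hasCompactSupport_normed
      (φ n).contDiff_normed hN.locallyIntegrable
  have huc : ∀ n, HasCompactSupport (u n) := fun n =>
    HasCompactSupport.convolution _ (φ n).hasCompactSupport_normed hfc
  have hun : ∀ n, ∫ z, u n z ^ 2 ≤ (cGN * (V + W)) ^ 2 := fun n =>
    gns (hus n) (huc n) ((h1.conv hN (φ n)).integral_abs_le (hus n) (huc n))
      ((h2.conv hN (φ n)).integral_abs_le (hus n) (huc n))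
  -- Fatou
  have hfat : ∫⁻ z, ENNReal.ofReal (f z ^ 2) ≤ ENNReal.ofReal ((cGN * (V + W)) ^ 2) := by
    calc ∫⁻ z, ENNReal.ofReal (f z ^ 2)
        = ∫⁻ z, liminf (fun n => ENNReal.ofReal (u n z ^ 2)) atTop := by
          refine lintegral_congr_ae ?_
          filter_upwards [hae] with z hz
          have : Tendsto (fun n => ENNReal.ofReal (u n z ^ 2)) atTop
              (𝓝 (ENNReal.ofReal (f z ^ 2))) :=
            (ENNReal.continuous_ofReal.tendsto _).comp (hz.pow 2)
          exact this.liminf_eq.symm
      _ ≤ liminf (fun n => ∫⁻ z, ENNReal.ofReal (u n z ^ 2)) atTop :=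
          lintegral_liminf_le fun n => ENNReal.measurable_ofReal.comp
            ((hus n).continuous.measurable.pow_const 2)
      _ ≤ ENNReal.ofReal ((cGN * (V + W)) ^ 2) := by
          refine liminf_le_of_le (by isBoundedDefault) fun b hb => ?_
          obtain ⟨n, hn⟩ := hb.exists
          refine le_trans hn ?_
          rw [← ofReal_integral_eq_lintegral_ofReal]
          · exact ENNReal.ofReal_le_ofReal (hun n)
          · exact ((hus n).continuous.memLp_of_hasCompactSupport (huc n)).integrable_sq
          · exact Eventually.of_forall fun z => by positivity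
  have hle : ∫⁻ z, ENNReal.ofReal (f z) ≤ ENNReal.ofReal ((cGN * (V + W)) ^ 2) := by
    refine le_trans (lintegral_mono fun z => ENNReal.ofReal_le_ofReal ?_) hfat
    simp only [hf]
    exact_mod_cast Nat.le_self_pow (by norm_num) (N z)
  rw [← ofReal_integral_eq_lintegral_ofReal hN
    (Eventually.of_forall fun z => Nat.cast_nonneg _)] at hle
  exact (ENNReal.ofReal_le_ofReal_iff (by positivity)).1 hle

end Vale.Agent.P247.H899
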