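import Mathlib

/-!
# A function on the disc with zero weak gradient is constant
-/

open scoped ContDiff Convolution
open Set MeasureTheory Filter Topology Metric

noncomputable section

namespace Vale.Agent.P247.H899

theorem exists_const {R : ℝ} (hR : 0 < R) {g : ℂ → ℝ} (hg : Integrable g)
    (h : ∀ v : ℂ, v = 1 ∨ v = Complex.I → ∀ ζ : ℂ → ℝ, ContDiff ℝ ∞ ζ → HasCompactSupport ζ →
      tsupport ζ ⊆ ball 0 R → ∫ z, g z * fderiv ℝ ζ z v = 0) :
    ∃ c : ℝ, ∀ᵐ z ∂volume.restrict (ball (0 : ℂ) R), g z = c := by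
  let φ : ℕ → ContDiffBump (0 : ℂ) := fun n =>
    ⟨1 / (2 * ((n : ℝ) + 1)), 1 / ((n : ℝ) + 1), by positivity, by
      apply one_div_lt_one_div_of_lt (by positivity)
      have : (0 : ℝ) < (n : ℝ) + 1 := by positivity
      linarith⟩
  have hout : ∀ n, (φ n).rOut = 1 / ((n : ℝ) + 1) := fun n => rfl
  have hin : ∀ n, (φ n).rIn = 1 / (2 * ((n : ℝ) + 1)) := fun n => rfl
  have hto : Tendsto (fun n => (φ n).rOut) atTop (𝓝 0) := by
    simp only [hout]; exact tendsto_one_div_add_atTop_nhds_zero_nat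
  have hae := ContDiffBump.ae_convolution_tendsto_right_of_locallyIntegrable (μ := (volume : Measure ℂ))
    (φ := φ) (l := atTop) (K := 2) hto (Eventually.of_forall fun n => by
      rw [hout, hin]; apply le_of_eq; field_simp) hg.locallyIntegrable
  set u : ℕ → ℂ → ℝ := fun n => (φ n).normed volume ⋆[ContinuousLinearMap.lsmul ℝ ℝ, volume] g
    with hu
  have hder : ∀ (n : ℕ) (z : ℂ), HasFDerivAt (u n)
      ((fderiv ℝ ((φ n).normed volume) ⋆[(ContinuousLinearMap.lsmul ℝ ℝ).precompL ℂ, volume] g) z) z :=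
    fun n z => HasCompactSupport.hasFDerivAt_convolution_left _ (φ n).hasCompactSupport_normed
      ((φ n).contDiff_normed (n := 1)) hg.locallyIntegrable z
  -- the derivative vanishes inside
  have hzero : ∀ (n : ℕ), ∀ z ∈ ball (0 : ℂ) (R - 1 / ((n : ℝ) + 1)), fderiv ℝ (u n) z = 0 := by
    intro n z hz
    have hρs : ContDiff ℝ ∞ ((φ n).normed (volume : Measure ℂ)) := (φ n).contDiff_normed
    have hρc : HasCompactSupport ((φ n).normed (volume : Measure ℂ)) :=
      (φ n).hasCompactSupport_normed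
    -- test function
    set ζ : ℂ → ℝ := fun w => (φ n).normed volume (z - w) with hζ
    have hζs : ContDiff ℝ ∞ ζ := hρs.comp (contDiff_const.sub contDiff_id)
    have hζc : HasCompactSupport ζ := by
      have : ζ = (φ n).normed volume ∘ (Homeomorph.subLeft z) := by
        funext w; simp [hζ]
      rw [this]
      exact hρc.comp_homeomorph _
    have hζt : tsupport ζ ⊆ ball 0 R := by
      have h1 : tsupport ζ ⊆ closedBall z (φ n).rOut := by
        refine closure_minimal (fun w hw => ?_) isClosed_closedBall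
        have h2 : z - w ∈ Function.support ((φ n).normed (volume : Measure ℂ)) := hw
        rw [(φ n).support_normed_eq] at h2
        rw [mem_closedBall, dist_comm, dist_eq_norm]
        have h3 : dist (z - w) 0 < (φ n).rOut := h2
        rw [dist_zero_right] at h3
        exact h3.le
      intro w hw
      have h4 := h1 hw
      rw [mem_closedBall, hout] at h4
      rw [mem_ball, dist_zero_right] at hz ⊢
      have h5 : ‖w‖ ≤ ‖z‖ + dist w z := by
        rw [dist_eq_norm]
        calc ‖w‖ = ‖z + (w - z)‖ := by congr 1; ring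
          _ ≤ _ := norm_add_le _ _
      linarith
    have hζd : ∀ w v, fderiv ℝ ζ w v = - fderiv ℝ ((φ n).normed volume) (z - w) v := by
      intro w v
      have h1 : HasFDerivAt ζ ((fderiv ℝ ((φ n).normed volume) (z - w)).comp
          (-(ContinuousLinearMap.id ℝ ℂ))) w := by
        have h2 : HasFDerivAt (fun w : ℂ => z - w) (-(ContinuousLinearMap.id ℝ ℂ)) w := by
          exact (hasFDerivAt_id (𝕜 := ℝ) w).const_sub z
        have h3 : HasFDerivAt ((φ n).normed (volume : Measure ℂ))
            (fderiv ℝ ((φ n).normed volume) (z - w)) (z - w) :=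
          (hρs.differentiable (by simp) _).hasFDerivAt
        exact h3.comp w h2
      rw [h1.fderiv]
      simp
    have hval : ∀ v, fderiv ℝ (u n) z v = - ∫ w, g w * fderiv ℝ ζ w v := by
      intro v
      rw [(hder n z).fderiv, convolution_def]
      have hconv : ConvolutionExistsAt (fderiv ℝ ((φ n).normed (volume : Measure ℂ))) g z
          ((ContinuousLinearMap.lsmul ℝ ℝ).precompL ℂ) volume := by
        refine HasCompactSupport.convolutionExists_left _ (hρc.fderiv ℝ)
          (hρs.continuous_fderiv (by simp)) hg.locallyIntegrable z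
      rw [ContinuousLinearMap.integral_apply hconv]
      rw [← integral_sub_left_eq_self _ volume z, ← integral_neg]
      refine integral_congr_ae (Eventually.of_forall fun w => ?_)
      simp only [hζd, sub_sub_cancel]
      rw [ContinuousLinearMap.precompL_apply]
      simp
      ring
    have h1 := h 1 (Or.inl rfl) ζ hζs hζc hζt
    have hI := h Complex.I (Or.inr rfl) ζ hζs hζc hζt
    ext v
    have e : v = v.re • (1 : ℂ) + v.im • Complex.I := by
      apply Complex.ext <;> simp
    conv_lhs => rw [e]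
    rw [map_add, map_smul, map_smul, hval, hval, h1, hI]
    simp
  -- constant inside
  have hconst : ∀ (n : ℕ), ∀ z ∈ ball (0 : ℂ) (R - 1 / ((n : ℝ) + 1)),
      ∀ w ∈ ball (0 : ℂ) (R - 1 / ((n : ℝ) + 1)), u n z = u n w := by
    intro n z hz w hw
    refine (convex_ball (0 : ℂ) _).is_const_of_fderivWithin_eq_zero (𝕜 := ℝ) (f := u n)
      (fun x _ => (hder n x).differentiableAt.differentiableWithinAt) (fun x hx => ?_) hz hw
    rw [fderivWithin_of_isOpen isOpen_ball hx]
    exact hzero n x hx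
  -- compare the limits
  have hae' : ∀ᵐ z ∂volume.restrict (ball (0 : ℂ) R), Tendsto (fun n => u n z) atTop (𝓝 (g z)) :=
    ae_restrict_of_ae hae
  have hne : (ae (volume.restrict (ball (0 : ℂ) R))).NeBot := by
    rw [ae_neBot, ne_eq, Measure.restrict_eq_zero]
    exact (measure_ball_pos volume (0 : ℂ) hR).ne'
  have hmem : ∀ᵐ z ∂volume.restrict (ball (0 : ℂ) R), z ∈ ball (0 : ℂ) R :=
    ae_restrict_mem measurableSet_ball
  obtain ⟨w, hw, hwb⟩ := (hae'.and hmem).exists
  refine ⟨g w, ?_⟩
  filter_upwards [hae', hmem] with z hz hzb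
  have hev : ∀ᶠ n : ℕ in atTop, u n z = u n w := by
    rw [mem_ball, dist_zero_right] at hzb hwb
    have h1 : ∀ᶠ n : ℕ in atTop, 1 / ((n : ℝ) + 1) < R - ‖z‖ :=
      tendsto_one_div_add_atTop_nhds_zero_nat.eventually (gt_mem_nhds (by linarith))
    have h2 : ∀ᶠ n : ℕ in atTop, 1 / ((n : ℝ) + 1) < R - ‖w‖ :=
      tendsto_one_div_add_atTop_nhds_zero_nat.eventually (gt_mem_nhds (by linarith))
    filter_upwards [h1, h2] with n hn1 hn2
    refine hconst n z ?_ w ?_
    · rw [mem_ball, dist_zero_right]; linarith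
    · rw [mem_ball, dist_zero_right]; linarith
  exact tendsto_nhds_unique (hz.congr' hev) hw

/-- local version -/
theorem exists_const_loc {g : ℂ → ℝ} (hg : ∀ r < 1, IntegrableOn g (ball 0 r))
    (h : ∀ v : ℂ, v = 1 ∨ v = Complex.I → ∀ ζ : ℂ → ℝ, ContDiff ℝ ∞ ζ → HasCompactSupport ζ →
      tsupport ζ ⊆ ball 0 1 → ∫ z, g z * fderiv ℝ ζ z v = 0) :
    ∃ c : ℝ, ∀ᵐ z ∂volume.restrict (ball (0 : ℂ) 1), g z = c := by
  have h1 : ∀ r : ℝ, 0 < r → r < 1 → ∃ c : ℝ, ∀ᵐ z, z ∈ ball (0 : ℂ) r → g z = c := by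
    intro r hr hr1
    obtain ⟨c, hc⟩ := exists_const hr ((integrable_indicator_iff measurableSet_ball).2 (hg r hr1))
      (fun v hv ζ hζ hζc hζt => by
        rw [← h v hv ζ hζ hζc (hζt.trans (ball_subset_ball hr1.le))]
        refine integral_congr_ae (Eventually.of_forall fun z => ?_)
        by_cases hz : z ∈ ball (0 : ℂ) r
        · simp only [indicator_of_mem hz]
        · have h2 : fderiv ℝ ζ z = 0 := by
            have h3 : z ∉ tsupport (fderiv ℝ ζ) := fun h4 =>
              hz (hζt (tsupport_fderiv_subset ℝ h4))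
            exact image_eq_zero_of_notMem_tsupport h3
          simp only [indicator_of_notMem hz, h2]
          simp)
    refine ⟨c, ?_⟩
    rw [ae_restrict_iff' measurableSet_ball] at hc
    filter_upwards [hc] with z hz hzr
    rw [← hz hzr, indicator_of_mem hzr]
  obtain ⟨c, hc⟩ := h1 (1 / 2) (by norm_num) (by norm_num)
  have h2 : ∀ n : ℕ, ∀ᵐ z, z ∈ ball (0 : ℂ) (1 - 1 / ((n : ℝ) + 2)) → g z = c := by
    intro n
    have hn : (0 : ℝ) < (n : ℝ) + 2 := by positivity
    have hn2 : 1 / ((n : ℝ) + 2) ≤ 1 / 2 := by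
      apply one_div_le_one_div_of_le (by norm_num)
      have : (0 : ℝ) ≤ n := Nat.cast_nonneg n
      linarith
    have hn3 : 0 < 1 / ((n : ℝ) + 2) := by positivity
    obtain ⟨c', hc'⟩ := h1 (1 - 1 / ((n : ℝ) + 2)) (by linarith) (by linarith)
    have h3 : ∃ z : ℂ, z ∈ ball (0 : ℂ) (1 / 2) ∧ (z ∈ ball (0 : ℂ) (1 / 2) → g z = c) ∧
        (z ∈ ball (0 : ℂ) (1 - 1 / ((n : ℝ) + 2)) → g z = c') := by
      have h4 : ∃ᵐ z : ℂ, z ∈ ball (0 : ℂ) (1 / 2) := by
        rw [frequently_ae_iff]
        exact (measure_ball_pos volume (0 : ℂ) (by norm_num)).ne'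
      obtain ⟨z, hz, hz2⟩ := (h4.and_eventually (hc.and hc')).exists
      exact ⟨z, hz, hz2.1, hz2.2⟩
    obtain ⟨z, hz, hz1, hz2⟩ := h3
    have h5 : c' = c := by
      rw [← hz1 hz, ← hz2 (ball_subset_ball (by linarith) hz)]
    rw [h5] at hc'
    exact hc'
  refine ⟨c, ?_⟩
  rw [ae_restrict_iff' measurableSet_ball]
  filter_upwards [ae_all_iff.2 h2] with z hz hzb
  rw [mem_ball, dist_zero_right] at hzb
  obtain ⟨n, hn⟩ := exists_nat_one_div_lt (show 0 < 1 - ‖z‖ by linarith)
  refine hz n ?_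
  rw [mem_ball, dist_zero_right]
  have : 1 / ((n : ℝ) + 2) ≤ 1 / ((n : ℝ) + 1) := by
    apply one_div_le_one_div_of_le (by positivity) (by linarith)
  linarith

end Vale.Agent.P247.H899
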