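import Mathlib

/-!
# Measurable enumeration of a measurable family of finite multisets
-/

open Set MeasureTheory Filter Topology

noncomputable section

namespace Vale.Agent.P247.H899

/-- in a sorted list the `i`-th entry is `≤ t` iff more than `i` entries are `≤ t` -/
lemma sorted_get_le {l : List ℝ} (hl : l.Pairwise (· ≤ ·)) (t : ℝ) (i : ℕ) (hi : i < l.length) :
    l[i] ≤ t ↔ i < l.countP (fun x => decide (x ≤ t)) := by
  induction l generalizing i with
  | nil => simp at hi
  | cons a l ih =>
    rw [List.pairwise_cons] at hl
    by_cases ha : a ≤ t
    · rw [List.countP_cons_of_pos (by simpa using ha)]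
      cases i with
      | zero => simp [ha]
      | succ i =>
        simp only [List.getElem_cons_succ, Nat.add_lt_add_iff_right]
        exact ih hl.2 i (by simpa using hi)
    · rw [List.countP_cons_of_neg (by simpa using ha)]
      have h0 : l.countP (fun x => decide (x ≤ t)) = 0 := by
        rw [List.countP_eq_zero]
        intro x hx
        have := hl.1 x hx
        simp only [decide_eq_true_eq, not_le]
        exact lt_of_lt_of_le (not_le.1 ha) this
      rw [h0]
      simp only [Nat.not_lt_zero, iff_false, not_le]
      cases i with
      | zero => simpa using ha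
      | succ i =>
        simp only [List.getElem_cons_succ]
        exact lt_of_lt_of_le (not_le.1 ha) (hl.1 _ (List.getElem_mem _))

variable {α : Type*} [MeasurableSpace α] {μ : Measure α}

/-- the counting functions of Borel sets are a.e. measurable -/
lemma aemeasurable_countP {N : ℕ} {s : α → Multiset ℂ} (hN : ∀ z, (s z).card = N)
    (hs : ∀ F : ℂ → ℝ, Continuous F → AEMeasurable (fun z => ((s z).map F).sum) μ)
    {E : Set ℂ} (hE : MeasurableSet E) :
    AEMeasurable (fun z => ((s z).map (E.indicator (fun _ => (1 : ℝ)))).sum) μ := by
  classical
  have hborel : (inferInstance : MeasurableSpace ℂ) =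
      MeasurableSpace.generateFrom {s : Set ℂ | IsClosed s} := by
    rw [← borel_eq_generateFrom_isClosed]
    exact BorelSpace.measurable_eq
  refine MeasurableSpace.induction_on_inter (s := {s : Set ℂ | IsClosed s})
    (C := fun E _ => AEMeasurable
      (fun z => ((s z).map (E.indicator (fun _ => (1 : ℝ)))).sum) μ) hborel
    (fun s hs t ht _ => hs.inter ht) ?_ ?_ ?_ ?_ E hE
  · simp
  · -- closed sets
    intro C hC
    have hC' : IsClosed C := hC
    -- approximate by continuous functions
    let F : ℕ → ℂ → ℝ := fun n y =>
      ((thickenedIndicator (δ := 1 / ((n : ℝ) + 1)) (by positivity) C y : NNReal) : ℝ)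
    have hF : ∀ n, Continuous (F n) := fun n =>
      NNReal.continuous_coe.comp (thickenedIndicator (by positivity) C).continuous
    refine aemeasurable_of_tendsto_metrizable_ae atTop (fun n => hs (F n) (hF n)) ?_
    refine Eventually.of_forall fun z => ?_
    have hpt : ∀ y, Tendsto (fun n => F n y) atTop (𝓝 (C.indicator (fun _ => (1 : ℝ)) y)) := by
      intro y
      have h1 := thickenedIndicator_tendsto_indicator_closure
        (δseq := fun n : ℕ => 1 / ((n : ℝ) + 1)) (fun n => by positivity)
        tendsto_one_div_add_atTop_nhds_zero_nat C
      rw [tendsto_pi_nhds] at h1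
      have h2 := h1 y
      rw [hC'.closure_eq] at h2
      have h3 := (NNReal.continuous_coe.tendsto _).comp h2
      have h4 : ((C.indicator (fun _ => (1 : NNReal)) y : NNReal) : ℝ) =
          C.indicator (fun _ => (1 : ℝ)) y := by
        by_cases hy : y ∈ C
        · rw [indicator_of_mem hy, indicator_of_mem hy]; rfl
        · rw [indicator_of_notMem hy, indicator_of_notMem hy]; rfl
      rw [← h4]
      exact h3
    induction (s z) using Multiset.induction_on with
    | empty => simp
    | cons a m ih =>
      simp only [Multiset.map_cons, Multiset.sum_cons]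
      exact (hpt a).add ih
  · intro t ht h
    have : (fun z => ((s z).map (tᶜ.indicator (fun _ => (1 : ℝ)))).sum) =
        fun z => (N : ℝ) - ((s z).map (t.indicator (fun _ => (1 : ℝ)))).sum := by
      funext z
      rw [eq_sub_iff_add_eq, ← Multiset.sum_map_add, ← hN z]
      have : (fun i => tᶜ.indicator (fun _ => (1 : ℝ)) i + t.indicator (fun _ => (1 : ℝ)) i) =
          fun _ => 1 := by
        funext i
        by_cases hi : i ∈ t <;> simp [hi]
      rw [this]
      simp
    rw [this]
    exact aemeasurable_const.sub h
  · intro f hd hf h
    have : (fun z => ((s z).map ((⋃ i, f i).indicator (fun _ => (1 : ℝ)))).sum) =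
        fun z => ∑' i, ((s z).map ((f i).indicator (fun _ => (1 : ℝ)))).sum := by
      funext z
      have hpt : ∀ y, HasSum (fun i => (f i).indicator (fun _ => (1 : ℝ)) y)
          ((⋃ i, f i).indicator (fun _ => (1 : ℝ)) y) := by
        intro y
        by_cases hy : y ∈ ⋃ i, f i
        · obtain ⟨i, hi⟩ := mem_iUnion.1 hy
          rw [indicator_of_mem hy]
          have : (fun j => (f j).indicator (fun _ => (1 : ℝ)) y) =
              fun j => if j = i then 1 else 0 := by
            funext j
            by_cases hj : j = i
            · subst hj; simp [hi]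
            · have : y ∉ f j := fun h' =>
                (Set.disjoint_left.1 (hd hj)) h' hi
              simp [this, hj]
          rw [this]
          exact hasSum_ite_eq i 1
        · rw [indicator_of_notMem hy]
          have : (fun j => (f j).indicator (fun _ => (1 : ℝ)) y) = fun _ => 0 := by
            funext j
            exact indicator_of_notMem (fun h' => hy (mem_iUnion.2 ⟨j, h'⟩)) _
          rw [this]
          exact hasSum_zero
      symm
      apply HasSum.tsum_eq
      induction (s z) using Multiset.induction_on with
      | empty => simp
      | cons a m ih =>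
        simp only [Multiset.map_cons, Multiset.sum_cons]
        exact (hpt a).add ih
    rw [this]
    -- a sum of measurable functions
    have hsum : ∀ z, Summable fun i => ((s z).map ((f i).indicator (fun _ => (1 : ℝ)))).sum := by
      intro z
      have hpt : ∀ y, Summable (fun i => (f i).indicator (fun _ => (1 : ℝ)) y) := by
        intro y
        by_cases hy : y ∈ ⋃ i, f i
        · obtain ⟨i, hi⟩ := mem_iUnion.1 hy
          have : (fun j => (f j).indicator (fun _ => (1 : ℝ)) y) =
              fun j => if j = i then 1 else 0 := by
            funext j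
            by_cases hj : j = i
            · subst hj; simp [hi]
            · have : y ∉ f j := fun h' =>
                (Set.disjoint_left.1 (hd hj)) h' hi
              simp [this, hj]
          rw [this]
          exact (hasSum_ite_eq i (1 : ℝ)).summable
        · have : (fun j => (f j).indicator (fun _ => (1 : ℝ)) y) = fun _ => 0 := by
            funext j
            exact indicator_of_notMem (fun h' => hy (mem_iUnion.2 ⟨j, h'⟩)) _
          rw [this]
          exact summable_zero
      induction (s z) using Multiset.induction_on with
      | empty => simp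
      | cons a m ih =>
        simp only [Multiset.map_cons, Multiset.sum_cons]
        exact (hpt a).add ih
    refine aemeasurable_of_tendsto_metrizable_ae atTop
      (f := fun n z => ∑ i ∈ Finset.range n, ((s z).map ((f i).indicator (fun _ => (1 : ℝ)))).sum)
      (fun n => ?_) (Eventually.of_forall fun z => (hsum z).hasSum.tendsto_sum_nat)
    exact Finset.aemeasurable_fun_sum _ fun i _ => h i

/-- measurable enumeration -/
theorem exists_enum {N : ℕ} {s : α → Multiset ℂ} (hN : ∀ z, (s z).card = N)
    (hs : ∀ F : ℂ → ℝ, Continuous F → AEMeasurable (fun z => ((s z).map F).sum) μ) :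
    ∃ Y : α → Fin N → ℂ, (∀ i, AEMeasurable (fun z => Y z i) μ) ∧
      ∀ z, s z = (Finset.univ : Finset (Fin N)).val.map (Y z) := by
  classical
  let e : ℂ → ℝ := embeddingReal ℂ
  have he : MeasurableEmbedding e := measurableEmbedding_embeddingReal ℂ
  -- sorted images
  let l : α → List ℝ := fun z => ((s z).map e).sort (· ≤ ·)
  have hlen : ∀ z, (l z).length = N := fun z => by
    simp [l, hN z]
  let X : α → Fin N → ℝ := fun z i => (l z)[i.1]'(by rw [hlen z]; exact i.2)
  have hXle : ∀ z i t, X z i ≤ t ↔ (i : ℕ) < ((s z).map e).countP (fun x => x ≤ t) := by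
    intro z i t
    have h1 := sorted_get_le (l := l z) (Multiset.pairwise_sort _ _) t i.1 (by rw [hlen z]; exact i.2)
    have h2 : ((s z).map e).countP (fun x => x ≤ t) =
        (l z).countP (fun x => decide (x ≤ t)) := by
      conv_lhs => rw [← Multiset.sort_eq ((s z).map e) (· ≤ ·)]
      rfl
    rw [h2]
    exact h1
  have hcount : ∀ t, AEMeasurable (fun z => (((s z).map e).countP (fun x => x ≤ t) : ℝ)) μ := by
    intro t
    have hE : MeasurableSet (e ⁻¹' Iic t) := he.measurable measurableSet_Iic
    have h1 := aemeasurable_countP hN hs hE
    have h2 : (fun z => (((s z).map e).countP (fun x => x ≤ t) : ℝ)) =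
        fun z => ((s z).map ((e ⁻¹' Iic t).indicator (fun _ => (1 : ℝ)))).sum := by
      funext z
      induction (s z) using Multiset.induction_on with
      | empty => simp
      | cons a m ih =>
        simp only [Multiset.map_cons, Multiset.sum_cons]
        by_cases ha : e a ≤ t
        · rw [Multiset.countP_cons_of_pos (p := fun x => x ≤ t) _ ha, indicator_of_mem (show a ∈ e ⁻¹' Iic t from ha)]
          push_cast
          rw [ih]; ring
        · rw [Multiset.countP_cons_of_neg (p := fun x => x ≤ t) _ ha,
            indicator_of_notMem (show a ∉ e ⁻¹' Iic t from ha), ih]; ring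
    rw [h2]
    exact h1
  have hXm : ∀ i, AEMeasurable (fun z => X z i) μ := by
    intro i
    have hnull : ∀ t, NullMeasurableSet {z | X z i ≤ t} μ := by
      intro t
      have h1 : {z | X z i ≤ t} =
          (fun z => (((s z).map e).countP (fun x => x ≤ t) : ℝ)) ⁻¹' Ioi (i : ℝ) := by
        ext z
        simp only [mem_ofPred_eq, mem_preimage, mem_Ioi, Nat.cast_lt]
        exact hXle z i t
      rw [h1]
      exact (hcount t).nullMeasurableSet_preimage measurableSet_Ioi
    have h2 : NullMeasurable (fun z => X z i) μ := by
      have : @Measurable (NullMeasurableSpace α μ) ℝ _ _ (fun z => X z i) :=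
        measurable_of_Iic fun t => hnull t
      exact this
    exact h2.aemeasurable
  -- back to the plane
  obtain ⟨g, hg, hge⟩ := he.exists_measurable_extend (g := fun y : ℂ => y) measurable_id
    (fun _ => ⟨0⟩)
  refine ⟨fun z i => g (X z i), fun i => hg.comp_aemeasurable (hXm i), fun z => ?_⟩
  have h1 : (l z : Multiset ℝ) = (s z).map e := Multiset.sort_eq _ _
  have h2 : (Finset.univ : Finset (Fin N)).val.map (X z) = (l z : Multiset ℝ) := by
    have h3 : List.ofFn (X z) = l z := by
      refine List.ext_getElem (by simp [hlen z]) fun n h1 h2 => ?_
      simp [X]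
    rw [← h3]
    simp [List.ofFn_eq_map, Fin.univ_def]
  have h4 : (Finset.univ : Finset (Fin N)).val.map (fun i => g (X z i)) =
      ((Finset.univ : Finset (Fin N)).val.map (X z)).map g := by
    rw [Multiset.map_map]; rfl
  rw [h4, h2, h1, Multiset.map_map]
  have h5 : ∀ y, (g ∘ e) y = y := fun y => congrFun hge y
  conv_lhs => rw [← Multiset.map_id (s z)]
  exact Multiset.map_congr rfl fun y _ => (h5 y).symm

end Vale.Agent.P247.H899
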