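import Vale.Agent.P247.H264.Mass
import Vale.Agent.P247.H899.Alg

/-!
# The current in a box, as a functional of the coefficients
-/

open scoped ContDiff Topology ComplexConjugate
open Set MeasureTheory Filter Metric

noncomputable section

namespace Vale.Agent.P247.H899

open Vale.Agent.P247.H74 Vale.Agent.P247.H574 Vale.Agent.P247.H264

/-- the current does not see what happens off its support -/
theorem T_off {D : Data} (S : ICur D) {φ : R4 → F2} (hφ : CF φ) (h : ∀ x ∈ S.supp, φ x = 0) :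
    S.T φ = 0 := by
  obtain ⟨μ, hμ, ⟨C, hC⟩, hs⟩ := MASS D S
  have h1 : μ (S.supp)ᶜ = 0 := by
    refine measure_null_of_locally_null _ fun x hx => ?_
    have h0 : ¬ ∀ ε > 0, 0 < μ (ball x ε) := fun h => hx ((hs x).2 h)
    push Not at h0
    obtain ⟨ε, hε, h0⟩ := h0
    exact ⟨ball x ε, mem_nhdsWithin_of_mem_nhds (ball_mem_nhds x hε), le_antisymm h0 bot_le⟩
  have h2 : ∫ x, ‖φ x‖ ∂μ = 0 := by
    have h3 : ∀ᵐ x ∂μ, ‖φ x‖ = 0 := by
      have h4 : ∀ᵐ x ∂μ, x ∈ S.supp := by rw [ae_iff]; exact h1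
      filter_upwards [h4] with x hx
      rw [h x hx]
      exact @norm_zero F2 _
    rw [integral_congr_ae h3, integral_zero]
  have h3 := hC φ hφ
  rw [h2, mul_zero] at h3
  exact abs_nonpos_iff.1 h3

theorem T_congr {D : Data} (S : ICur D) {φ ψ : R4 → F2} (hφ : CF φ) (hψ : CF ψ)
    (h : ∀ x ∈ S.supp, φ x = ψ x) : S.T φ = S.T ψ := by
  have h1 : S.T (φ - ψ) = 0 := by
    refine T_off S ?_ fun x hx => ext_F2 fun u v => ?_
    · have e : φ - ψ = φ + (-ψ) := by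
        funext x
        exact ext_F2 fun u v => by show φ x u v - ψ x u v = φ x u v + -ψ x u v; ring
      rw [e]
      exact CF.add' hφ (CF.neg' hψ)
    · show φ x u v - ψ x u v = 0
      rw [h x hx, sub_self]
  rw [H264.ICur.sub S hφ hψ] at h1
  linarith

/-- coefficient functions -/
structure KK (r : ℝ) {E : Type*} [TopologicalSpace E] [Zero E] (f : ℂ × ℂ → E) : Prop where
  cont : Continuous f
  hcs : HasCompactSupport f
  sub : tsupport f ⊆ PD r

namespace KK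

variable {r : ℝ}

lemma mono {E : Type*} [TopologicalSpace E] [Zero E] {f : ℂ × ℂ → E} {s : ℝ} (h : KK r f)
    (hrs : r ≤ s) : KK s f := ⟨h.cont, h.hcs, h.sub.trans (PD_mono hrs)⟩

lemma of_zero {E F : Type*} [TopologicalSpace E] [Zero E] [TopologicalSpace F] [Zero F]
    {f : ℂ × ℂ → E} {g : ℂ × ℂ → F} (h : KK r f) (hg : Continuous g) (h0 : ∀ p, f p = 0 → g p = 0) :
    KK r g := by
  have hs : Function.support g ⊆ Function.support f := fun p hp hf => hp (h0 p hf)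
  exact ⟨hg, h.hcs.mono hs, (closure_mono hs).trans h.sub⟩

lemma zero (E : Type*) [TopologicalSpace E] [Zero E] : KK r (fun _ : ℂ × ℂ => (0 : E)) := by
  have h : Function.support (fun _ : ℂ × ℂ => (0 : E)) = ∅ := by
    ext p; simp
  refine ⟨continuous_const, ?_, ?_⟩
  · rw [HasCompactSupport, tsupport, h, closure_empty]; exact isCompact_empty
  · rw [tsupport, h, closure_empty]; exact empty_subset _

lemma add {E : Type*} [NormedAddCommGroup E] {f g : ℂ × ℂ → E} (hf : KK r f) (hg : KK r g) :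
    KK r fun p => f p + g p :=
  ⟨hf.cont.add hg.cont, hf.hcs.add hg.hcs, (tsupport_add f g).trans (union_subset hf.sub hg.sub)⟩

lemma comp {E F : Type*} [TopologicalSpace E] [Zero E] [TopologicalSpace F] [Zero F]
    {f : ℂ × ℂ → E} (h : KK r f) {g : E → F} (hg : Continuous g) (h0 : g 0 = 0) :
    KK r fun p => g (f p) :=
  h.of_zero (hg.comp h.cont) fun p hp => by rw [hp, h0]

/-- multiplication with a function which is continuous on the big polydisc -/
lemma mulOn {E F : Type*} [NormedAddCommGroup E] [NormedAddCommGroup F] (hr : r ≤ 2)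
    {f : ℂ × ℂ → E} (h : KK r f)
    {g : ℂ × ℂ → F} (hg : ContinuousOn g (PD 2)) (h0 : ∀ p, f p = 0 → g p = 0) : KK r g := by
  refine h.of_zero ?_ h0
  refine continuous_of_off (isOpen_PD 2) (isClosed_tsupport f) (h.sub.trans (PD_mono hr)) hg ?_
  intro x hx
  exact h0 x (image_eq_zero_of_notMem_tsupport hx)

end KK

variable {D : Data} (S : ICur D) (b : Box D)

/-- the current on Hermitian forms -/
def TH (a : ℂ × ℂ → ℝ) (c : ℂ × ℂ → ℂ) (d : ℂ × ℂ → ℝ) : ℝ :=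
  S.T (push2 b fun p => Hm b p (a p) (c p) (d p))

variable {S b}

lemma H_cf {a : ℂ × ℂ → ℝ} {c : ℂ × ℂ → ℂ} {d : ℂ × ℂ → ℝ} (ha : KK 2 a) (hc : KK 2 c)
    (hd : KK 2 d) : CF (push2 b fun p => Hm b p (a p) (c p) (d p)) := by
  refine (push2_cf b (K := tsupport a ∪ (tsupport c ∪ tsupport d))
    (continuousOn_Hm b ha.cont.continuousOn hc.cont.continuousOn hd.cont.continuousOn)
    (ha.hcs.isCompact.union (hc.hcs.isCompact.union hd.hcs.isCompact))
    (union_subset ha.sub (union_subset hc.sub hd.sub)) (fun p hp => ?_)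
    (fun p _ v => Hm_self b p _ _ _ v)).1
  rw [mem_union, mem_union, not_or, not_or] at hp
  rw [image_eq_zero_of_notMem_tsupport hp.1, image_eq_zero_of_notMem_tsupport hp.2.1,
    image_eq_zero_of_notMem_tsupport hp.2.2, Hm_zero]

lemma push2_add (β β' : ℂ × ℂ → (ℂ × ℂ) →L[ℝ] (ℂ × ℂ) →L[ℝ] ℝ) :
    push2 b (fun p => β p + β' p) = push2 b β + push2 b β' := by
  funext x
  refine ext_F2 fun u v => ?_
  by_cases hx : x ∈ b.Θ '' PD 2
  · show push2 b (fun p => β p + β' p) x u v = push2 b β x u v + push2 b β' x u v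
    simp only [push2, indicator_of_mem hx, ContinuousLinearMap.bilinearComp_apply,
      add_apply]
  · show push2 b (fun p => β p + β' p) x u v = push2 b β x u v + push2 b β' x u v
    rw [push2_off b _ hx, push2_off b _ hx, push2_off b _ hx]
    simp [zero_F2]

lemma push2_smul (r : ℝ) (β : ℂ × ℂ → (ℂ × ℂ) →L[ℝ] (ℂ × ℂ) →L[ℝ] ℝ) :
    push2 b (fun p => r • β p) = r • push2 b β := by
  funext x
  refine ext_F2 fun u v => ?_
  by_cases hx : x ∈ b.Θ '' PD 2
  · show push2 b (fun p => r • β p) x u v = r * push2 b β x u v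
    simp only [push2, indicator_of_mem hx, ContinuousLinearMap.bilinearComp_apply,
      smul_apply, smul_eq_mul]
  · show push2 b (fun p => r • β p) x u v = r * push2 b β x u v
    rw [push2_off b _ hx, push2_off b _ hx]
    simp [zero_F2]

lemma TH_add {a a' : ℂ × ℂ → ℝ} {c c' : ℂ × ℂ → ℂ} {d d' : ℂ × ℂ → ℝ} (ha : KK 2 a) (hc : KK 2 c)
    (hd : KK 2 d) (ha' : KK 2 a') (hc' : KK 2 c') (hd' : KK 2 d') :
    TH S b (fun p => a p + a' p) (fun p => c p + c' p) (fun p => d p + d' p) =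
      TH S b a c d + TH S b a' c' d' := by
  rw [TH, TH, TH, ← S.add _ _ (H_cf ha hc hd) (H_cf ha' hc' hd'), ← push2_add]
  simp only [Hm_add]

lemma TH_smul {a : ℂ × ℂ → ℝ} {c : ℂ × ℂ → ℂ} {d : ℂ × ℂ → ℝ} (ha : KK 2 a) (hc : KK 2 c)
    (hd : KK 2 d) (r : ℝ) :
    TH S b (fun p => r * a p) (fun p => r * c p) (fun p => r * d p) = r * TH S b a c d := by
  rw [TH, TH, ← S.smul _ _ (H_cf ha hc hd), ← push2_smul]
  simp only [Hm_smul]

lemma TH_nonneg {a : ℂ × ℂ → ℝ} {c : ℂ × ℂ → ℂ} {d : ℂ × ℂ → ℝ} (ha : KK 2 a) (hc : KK 2 c)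
    (hd : KK 2 d) (h : ∀ p s t, 0 ≤ a p * ‖s‖ ^ 2 + d p * ‖t‖ ^ 2 + 2 * (c p * (conj s * t)).re) :
    0 ≤ TH S b a c d := by
  refine S.pos _ (H_cf ha hc hd) fun x u => ?_
  by_cases hx : x ∈ b.Θ '' PD 2
  · obtain ⟨p, hp, rfl⟩ := hx
    obtain ⟨v, rfl⟩ := surj_dΘ b hp u
    obtain ⟨w, h1, h2, h3⟩ := exists_J b hp v
    rw [h3, push2_apply b _ hp, Hm_J b p _ _ _ h1 h2]
    exact h p _ _
  · rw [push2_off b _ hx]; exact le_rfl

lemma TH_congr {a a' : ℂ × ℂ → ℝ} {c c' : ℂ × ℂ → ℂ} {d d' : ℂ × ℂ → ℝ} (ha : KK 2 a) (hc : KK 2 c)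
    (hd : KK 2 d) (ha' : KK 2 a') (hc' : KK 2 c') (hd' : KK 2 d')
    (h : ∀ p ∈ PD 2, b.Θ p ∈ S.supp → a p = a' p ∧ c p = c' p ∧ d p = d' p) :
    TH S b a c d = TH S b a' c' d' := by
  refine T_congr S (H_cf ha hc hd) (H_cf ha' hc' hd') fun x hx => ?_
  by_cases hx' : x ∈ b.Θ '' PD 2
  · obtain ⟨p, hp, rfl⟩ := hx'
    obtain ⟨h1, h2, h3⟩ := h p hp hx
    refine f2_ext b hp fun v w => ?_
    rw [push2_apply b _ hp, push2_apply b _ hp, h1, h2, h3]
  · rw [push2_off b _ hx', push2_off b _ hx']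

lemma TH_split {a : ℂ × ℂ → ℝ} {c : ℂ × ℂ → ℂ} {d : ℂ × ℂ → ℝ} (ha : KK 2 a) (hc : KK 2 c)
    (hd : KK 2 d) : TH S b a c d = TH S b a (fun _ => 0) (fun _ => 0) +
      TH S b (fun _ => 0) c (fun _ => 0) + TH S b (fun _ => 0) (fun _ => 0) d := by
  have z := KK.zero (r := 2) ℝ
  have zc := KK.zero (r := 2) ℂ
  have h1 := TH_add (S := S) (b := b) ha zc z z hc z
  have h2 := TH_add (S := S) (b := b) ha hc z z zc hd
  simp only [add_zero, zero_add] at h1 h2
  rw [h2, h1]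

/-- the good region -/
lemma good_lt {ρ : ℝ} (hG : GoodBox S b ρ) {p : ℂ × ℂ} (hp : p ∈ PD 1) (h : b.Θ p ∈ S.supp) :
    ‖p.2‖ < ρ := by
  by_contra h0
  push Not at h0
  have h1 := ball_subset_closedBall hp.1
  have h2 := ball_subset_closedBall hp.2
  exact hG.2.2 p.1 h1 p.2 h2 h0 h

/-- two sets of coefficients, supported in the polydisc, which agree for `‖y‖ < ρ` -/
lemma TH_congr_good {ρ : ℝ} (hG : GoodBox S b ρ) {a a' : ℂ × ℂ → ℝ} {c c' : ℂ × ℂ → ℂ}
    {d d' : ℂ × ℂ → ℝ} (ha : KK 1 a) (hc : KK 1 c)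
    (hd : KK 1 d) (ha' : KK 1 a') (hc' : KK 1 c') (hd' : KK 1 d')
    (h : ∀ p, ‖p.2‖ < ρ → a p = a' p ∧ c p = c' p ∧ d p = d' p) :
    TH S b a c d = TH S b a' c' d' := by
  have e : (1 : ℝ) ≤ 2 := one_le_two
  refine TH_congr (ha.mono e) (hc.mono e) (hd.mono e) (ha'.mono e) (hc'.mono e) (hd'.mono e) ?_
  intro p hp hps
  by_cases h1 : p ∈ PD 1
  · exact h p (good_lt hG h1 hps)
  · have h0 : ∀ {E : Type} [TopologicalSpace E] [Zero E] {f : ℂ × ℂ → E}, KK 1 f → f p = 0 :=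
      fun hf => image_eq_zero_of_notMem_tsupport fun hp' => h1 (hf.sub hp')
    rw [h0 ha, h0 ha', h0 hc, h0 hc', h0 hd, h0 hd']
    exact ⟨rfl, rfl, rfl⟩

end Vale.Agent.P247.H899
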