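import Vale.Agent.P247.H574.Sta2

/-!
# Transport of forms by a box
-/

open scoped ContDiff Topology
open Set MeasureTheory Filter Metric

noncomputable section

namespace Vale.Agent.P247.H899

open Vale.Agent.P247.H74 Vale.Agent.P247.H574

/-! ## Gluing by zero -/

lemma contDiff_of_off {E F : Type*} [NormedAddCommGroup E] [NormedSpace ℝ E]
    [NormedAddCommGroup F] [NormedSpace ℝ F] {n : WithTop ℕ∞} {f : E → F} {U K : Set E}
    (hU : IsOpen U) (hK : IsClosed K) (hKU : K ⊆ U) (hf : ContDiffOn ℝ n f U)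
    (h0 : ∀ x, x ∉ K → f x = 0) : ContDiff ℝ n f := by
  rw [contDiff_iff_contDiffAt]
  intro x
  by_cases hx : x ∈ U
  · exact (hf x hx).contDiffAt (hU.mem_nhds hx)
  · have hx' : x ∈ Kᶜ := fun h => hx (hKU h)
    refine (contDiffAt_const (c := (0 : F))).congr_of_eventuallyEq ?_
    filter_upwards [hK.isOpen_compl.mem_nhds hx'] with y hy using h0 y hy

lemma continuous_of_off {X F : Type*} [TopologicalSpace X] [TopologicalSpace F] [Zero F]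
    {f : X → F} {U K : Set X} (hU : IsOpen U) (hK : IsClosed K) (hKU : K ⊆ U)
    (hf : ContinuousOn f U) (h0 : ∀ x, x ∉ K → f x = 0) : Continuous f := by
  rw [continuous_iff_continuousAt]
  intro x
  by_cases hx : x ∈ U
  · exact (hf x hx).continuousAt (hU.mem_nhds hx)
  · have hx' : x ∈ Kᶜ := fun h => hx (hKU h)
    refine (continuousAt_const (y := (0 : F))).congr ?_
    filter_upwards [hK.isOpen_compl.mem_nhds hx'] with y hy using (h0 y hy).symm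

/-! ## The inverse chart -/

lemma isOpen_PD (r : ℝ) : IsOpen (PD r) := isOpen_ball.prod isOpen_ball

lemma PD_mono {r s : ℝ} (h : r ≤ s) : PD r ⊆ PD s :=
  prod_mono (ball_subset_ball h) (ball_subset_ball h)

lemma tr_zero (x : R4) : tr 0 x = x := by
  funext i; simp [tr]

variable {D : Data} (b : Box D)

lemma injOn : InjOn b.Θ (PD 2) := fun p hp q hq h =>
  (b.inj p hp q hq 0 (by rw [tr_zero]; exact h)).1

/-- the inverse chart -/
def inv : R4 → ℂ × ℂ := Function.invFunOn b.Θ (PD 2)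

lemma inv_mem {x : R4} (hx : x ∈ b.Θ '' PD 2) : inv b x ∈ PD 2 := Function.invFunOn_mem hx

lemma Θ_inv {x : R4} (hx : x ∈ b.Θ '' PD 2) : b.Θ (inv b x) = x := Function.invFunOn_eq hx

lemma inv_Θ {p : ℂ × ℂ} (hp : p ∈ PD 2) : inv b (b.Θ p) = p :=
  (injOn b).leftInvOn_invFunOn hp

/-- the derivative as an equivalence -/
def dΘ {p : ℂ × ℂ} (hp : p ∈ PD 2) : (ℂ × ℂ) ≃L[ℝ] R4 :=
  ContinuousLinearEquiv.ofBijective (fderiv ℝ b.Θ p)
    (LinearMap.ker_eq_bot.2 (b.imm p hp).1) (LinearMap.range_eq_top.2 (b.imm p hp).2)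

lemma dΘ_coe {p : ℂ × ℂ} (hp : p ∈ PD 2) : (dΘ b hp : (ℂ × ℂ) →L[ℝ] R4) = fderiv ℝ b.Θ p := by
  exact ContinuousLinearMap.ext fun v => rfl

lemma dΘ_apply {p : ℂ × ℂ} (hp : p ∈ PD 2) (v : ℂ × ℂ) : dΘ b hp v = fderiv ℝ b.Θ p v := rfl

lemma contDiffAt_Θ {p : ℂ × ℂ} (hp : p ∈ PD 2) : ContDiffAt ℝ ∞ b.Θ p :=
  (b.smooth p hp).contDiffAt ((isOpen_PD 2).mem_nhds hp)

lemma hasFDerivAt_Θ {p : ℂ × ℂ} (hp : p ∈ PD 2) :
    HasFDerivAt b.Θ (dΘ b hp : (ℂ × ℂ) →L[ℝ] R4) p := by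
  rw [dΘ_coe]
  exact ((contDiffAt_Θ b hp).differentiableAt (by simp)).hasFDerivAt

/-- the local inverse near a point of the image -/
lemma exists_local {p : ℂ × ℂ} (hp : p ∈ PD 2) :
    ∃ g : R4 → ℂ × ℂ, ContDiffAt ℝ ∞ g (b.Θ p) ∧ g (b.Θ p) = p ∧
      ∀ᶠ y in 𝓝 (b.Θ p), g y ∈ PD 2 ∧ b.Θ (g y) = y := by
  have h1 := contDiffAt_Θ b hp
  have h2 := hasFDerivAt_Θ b hp
  have hn : (∞ : WithTop ℕ∞) ≠ 0 := by simp
  have hs := h1.hasStrictFDerivAt' h2 hn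
  refine ⟨h1.localInverse h2 hn, h1.to_localInverse h2 hn, h1.localInverse_apply_image h2 hn, ?_⟩
  have h3 : Tendsto (h1.localInverse h2 hn) (𝓝 (b.Θ p)) (𝓝 p) := hs.localInverse_tendsto
  exact (h3.eventually ((isOpen_PD 2).mem_nhds hp)).and hs.eventually_right_inverse

lemma image_mem_nhds {p : ℂ × ℂ} (hp : p ∈ PD 2) {U : Set (ℂ × ℂ)} (hU : U ∈ 𝓝 p) :
    b.Θ '' U ∈ 𝓝 (b.Θ p) := by
  have hs := (contDiffAt_Θ b hp).hasStrictFDerivAt' (hasFDerivAt_Θ b hp) (by simp)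
  rw [← hs.map_nhds_eq_of_equiv]
  exact image_mem_map hU

lemma isOpen_image {U : Set (ℂ × ℂ)} (hU : IsOpen U) (hU2 : U ⊆ PD 2) :
    IsOpen (b.Θ '' U) := by
  rw [isOpen_iff_mem_nhds]
  rintro _ ⟨p, hp, rfl⟩
  exact image_mem_nhds b (hU2 hp) (hU.mem_nhds hp)

lemma contDiffAt_inv {x : R4} (hx : x ∈ b.Θ '' PD 2) : ContDiffAt ℝ ∞ (inv b) x := by
  obtain ⟨p, hp, rfl⟩ := hx
  obtain ⟨g, hg, -, hgy⟩ := exists_local b hp
  refine hg.congr_of_eventuallyEq ?_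
  filter_upwards [hgy] with y hy
  rw [← hy.2, inv_Θ b hy.1, hy.2]

lemma contDiffOn_inv : ContDiffOn ℝ ∞ (inv b) (b.Θ '' PD 2) := fun _ hx =>
  (contDiffAt_inv b hx).contDiffWithinAt

lemma fderiv_inv_comp {p : ℂ × ℂ} (hp : p ∈ PD 2) (v : ℂ × ℂ) :
    fderiv ℝ (inv b) (b.Θ p) (fderiv ℝ b.Θ p v) = v := by
  have h1 : HasFDerivAt (inv b ∘ b.Θ)
      ((fderiv ℝ (inv b) (b.Θ p)).comp (dΘ b hp : (ℂ × ℂ) →L[ℝ] R4)) p :=
    (((contDiffAt_inv b ⟨p, hp, rfl⟩).differentiableAt (by simp)).hasFDerivAt).comp p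
      (hasFDerivAt_Θ b hp)
  have h2 : HasFDerivAt (inv b ∘ b.Θ) (ContinuousLinearMap.id ℝ (ℂ × ℂ)) p := by
    refine (hasFDerivAt_id p).congr_of_eventuallyEq ?_
    filter_upwards [(isOpen_PD 2).mem_nhds hp] with q hq
    exact inv_Θ b hq
  have h3 := h1.unique h2
  have h4 := congrArg (fun L : (ℂ × ℂ) →L[ℝ] (ℂ × ℂ) => L v) h3
  simpa [dΘ_coe] using h4

lemma isCompact_image {K : Set (ℂ × ℂ)} (hK : IsCompact K) (hK2 : K ⊆ PD 2) :
    IsCompact (b.Θ '' K) :=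
  hK.image_of_continuousOn (b.smooth.continuousOn.mono hK2)

lemma isCompact_inv_image {K : Set R4} (hK : IsCompact K) (hK2 : K ⊆ b.Θ '' PD 2) :
    IsCompact (inv b '' K) :=
  hK.image_of_continuousOn ((contDiffOn_inv b).continuousOn.mono hK2)

/-! ## Push-forward of forms -/

/-- push-forward of one-forms -/
def push1 (al : ℂ × ℂ → (ℂ × ℂ) →L[ℝ] ℝ) : R4 → R4 →L[ℝ] ℝ := by
  classical
  exact (b.Θ '' PD 2).indicator fun x => (al (inv b x)).comp (fderiv ℝ (inv b) x)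

/-- push-forward of bilinear forms -/
def push2 (β : ℂ × ℂ → (ℂ × ℂ) →L[ℝ] (ℂ × ℂ) →L[ℝ] ℝ) : R4 → F2 := by
  classical
  exact (b.Θ '' PD 2).indicator fun x =>
    (β (inv b x)).bilinearComp (fderiv ℝ (inv b) x) (fderiv ℝ (inv b) x)

lemma push1_apply (al : ℂ × ℂ → (ℂ × ℂ) →L[ℝ] ℝ) {p : ℂ × ℂ} (hp : p ∈ PD 2) (v : ℂ × ℂ) :
    push1 b al (b.Θ p) (fderiv ℝ b.Θ p v) = al p v := by
  rw [push1, indicator_of_mem (mem_image_of_mem _ hp), ContinuousLinearMap.comp_apply, inv_Θ b hp,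
    fderiv_inv_comp b hp]

lemma push2_apply (β : ℂ × ℂ → (ℂ × ℂ) →L[ℝ] (ℂ × ℂ) →L[ℝ] ℝ) {p : ℂ × ℂ} (hp : p ∈ PD 2)
    (v w : ℂ × ℂ) :
    push2 b β (b.Θ p) (fderiv ℝ b.Θ p v) (fderiv ℝ b.Θ p w) = β p v w := by
  rw [push2, indicator_of_mem (mem_image_of_mem _ hp), ContinuousLinearMap.bilinearComp_apply, inv_Θ b hp,
    fderiv_inv_comp b hp, fderiv_inv_comp b hp]

lemma push1_off (al : ℂ × ℂ → (ℂ × ℂ) →L[ℝ] ℝ) {x : R4} (hx : x ∉ b.Θ '' PD 2) :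
    push1 b al x = 0 := by
  rw [push1, indicator_of_notMem hx]

lemma push2_off (β : ℂ × ℂ → (ℂ × ℂ) →L[ℝ] (ℂ × ℂ) →L[ℝ] ℝ) {x : R4} (hx : x ∉ b.Θ '' PD 2) :
    push2 b β x = 0 := by
  rw [push2, indicator_of_notMem hx]

lemma push1_zero_off {al : ℂ × ℂ → (ℂ × ℂ) →L[ℝ] ℝ} {K : Set (ℂ × ℂ)}
    (h0 : ∀ p, p ∉ K → al p = 0) {x : R4} (hx : x ∉ b.Θ '' (K ∩ PD 2)) : push1 b al x = 0 := by
  by_cases h : x ∈ b.Θ '' PD 2
  · obtain ⟨p, hp, rfl⟩ := h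
    have hpK : p ∉ K := fun hpK => hx ⟨p, ⟨hpK, hp⟩, rfl⟩
    rw [push1, indicator_of_mem (mem_image_of_mem _ hp), inv_Θ b hp, h0 p hpK, ContinuousLinearMap.zero_comp]
  · exact push1_off b al h

lemma push2_zero_off {β : ℂ × ℂ → (ℂ × ℂ) →L[ℝ] (ℂ × ℂ) →L[ℝ] ℝ} {K : Set (ℂ × ℂ)}
    (h0 : ∀ p, p ∉ K → β p = 0) {x : R4} (hx : x ∉ b.Θ '' (K ∩ PD 2)) : push2 b β x = 0 := by
  by_cases h : x ∈ b.Θ '' PD 2
  · obtain ⟨p, hp, rfl⟩ := h
    have hpK : p ∉ K := fun hpK => hx ⟨p, ⟨hpK, hp⟩, rfl⟩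
    rw [push2, indicator_of_mem (mem_image_of_mem _ hp), inv_Θ b hp, h0 p hpK]
    ext v w; simp
  · exact push2_off b β h

lemma push1_contDiff {al : ℂ × ℂ → (ℂ × ℂ) →L[ℝ] ℝ} (hal : ContDiffOn ℝ ∞ al (PD 2))
    {K : Set (ℂ × ℂ)} (hK : IsCompact K) (hK2 : K ⊆ PD 2) (h0 : ∀ p, p ∉ K → al p = 0) :
    ContDiff ℝ ∞ (push1 b al) ∧ HasCompactSupport (push1 b al) := by
  have hc := isCompact_image b hK hK2
  have hz : ∀ x, x ∉ b.Θ '' K → push1 b al x = 0 := by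
    intro x hx
    exact push1_zero_off b h0 (fun h => hx (image_mono inter_subset_left h))
  have hO := isOpen_image b (isOpen_PD 2) le_rfl
  refine ⟨contDiff_of_off hO hc.isClosed (image_mono hK2) ?_ hz,
    HasCompactSupport.intro hc hz⟩
  have h1 : ContDiffOn ℝ ∞ (fun x => (al (inv b x)).comp (fderiv ℝ (inv b) x)) (b.Θ '' PD 2) := by
    have h2 : ContDiffOn ℝ ∞ (fun x => al (inv b x)) (b.Θ '' PD 2) :=
      hal.comp (contDiffOn_inv b) fun x hx => inv_mem b hx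
    have h3 : ContDiffOn ℝ ∞ (fun x => fderiv ℝ (inv b) x) (b.Θ '' PD 2) :=
      (contDiffOn_inv b).fderiv_of_isOpen hO (by simp)
    exact h2.clm_comp h3
  refine h1.congr fun x hx => ?_
  rw [push1, indicator_of_mem hx]

lemma push2_cf {β : ℂ × ℂ → (ℂ × ℂ) →L[ℝ] (ℂ × ℂ) →L[ℝ] ℝ} (hβ : ContinuousOn β (PD 2))
    {K : Set (ℂ × ℂ)} (hK : IsCompact K) (hK2 : K ⊆ PD 2) (h0 : ∀ p, p ∉ K → β p = 0)
    (halt : ∀ p ∈ PD 2, ∀ v, β p v v = 0) :
    CF (push2 b β) ∧ tsupport (push2 b β) ⊆ b.Θ '' K := by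
  have hc := isCompact_image b hK hK2
  have hz : ∀ x, x ∉ b.Θ '' K → push2 b β x = 0 := by
    intro x hx
    exact push2_zero_off b h0 (fun h => hx (image_mono inter_subset_left h))
  have hO := isOpen_image b (isOpen_PD 2) le_rfl
  refine ⟨⟨continuous_of_off hO hc.isClosed (image_mono hK2) ?_ hz,
    HasCompactSupport.intro hc hz, ?_⟩, ?_⟩
  · have h2 : ContinuousOn (fun x => β (inv b x)) (b.Θ '' PD 2) :=
      hβ.comp (contDiffOn_inv b).continuousOn fun x hx => inv_mem b hx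
    have h3 : ContinuousOn (fun x => fderiv ℝ (inv b) x) (b.Θ '' PD 2) :=
      ((contDiffOn_inv b).fderiv_of_isOpen (m := ∞) hO (by simp)).continuousOn
    have h4 : ContinuousOn (fun x => (β (inv b x)).bilinearComp (fderiv ℝ (inv b) x)
        (fderiv ℝ (inv b) x)) (b.Θ '' PD 2) := by
      have : (fun x => (β (inv b x)).bilinearComp (fderiv ℝ (inv b) x) (fderiv ℝ (inv b) x)) =
          fun x => (((β (inv b x)).comp (fderiv ℝ (inv b) x)).flip.comp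
            (fderiv ℝ (inv b) x)).flip := by
        funext x; ext v w; simp
      rw [this]
      have h5 : ContinuousOn (fun x => ((β (inv b x)).comp (fderiv ℝ (inv b) x)).flip)
          (b.Θ '' PD 2) :=
        (ContinuousLinearMap.flipₗᵢ ℝ R4 (ℂ × ℂ) ℝ).continuous.comp_continuousOn (h2.clm_comp h3)
      exact (ContinuousLinearMap.flipₗᵢ ℝ R4 R4 ℝ).continuous.comp_continuousOn (h5.clm_comp h3)
    refine h4.congr fun x hx => ?_
    rw [push2, indicator_of_mem hx]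
  · intro x u
    by_cases hx : x ∈ b.Θ '' PD 2
    · rw [push2, indicator_of_mem hx, ContinuousLinearMap.bilinearComp_apply]
      exact halt _ (inv_mem b hx) _
    · rw [push2_off b β hx]; rfl
  · refine closure_minimal (fun x hx => ?_) hc.isClosed
    by_contra h
    exact hx (hz x h)

lemma surj_dΘ {p : ℂ × ℂ} (hp : p ∈ PD 2) (u : R4) : ∃ v, fderiv ℝ b.Θ p v = u :=
  (b.imm p hp).2 u

/-- two bilinear forms on `ℝ⁴` agree at a point of the box if they agree on all `DΘ v` -/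
lemma f2_ext {p : ℂ × ℂ} (hp : p ∈ PD 2) {B C : F2}
    (h : ∀ v w, B (fderiv ℝ b.Θ p v) (fderiv ℝ b.Θ p w) =
      C (fderiv ℝ b.Θ p v) (fderiv ℝ b.Θ p w)) : B = C := by
  ext u u'
  obtain ⟨v, rfl⟩ := surj_dΘ b hp u
  obtain ⟨w, rfl⟩ := surj_dΘ b hp u'
  exact h v w

/-- naturality of the exterior derivative -/
lemma dd_push1 {al : ℂ × ℂ → (ℂ × ℂ) →L[ℝ] ℝ} (hal : ContDiffOn ℝ ∞ al (PD 2))
    {K : Set (ℂ × ℂ)} (hK : IsCompact K) (hK2 : K ⊆ PD 2) (h0 : ∀ p, p ∉ K → al p = 0)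
    {p : ℂ × ℂ} (hp : p ∈ PD 2) (v w : ℂ × ℂ) :
    dd (push1 b al) (b.Θ p) (fderiv ℝ b.Θ p v) (fderiv ℝ b.Θ p w) =
      fderiv ℝ al p v w - fderiv ℝ al p w v := by
  have hl := (push1_contDiff b hal hK hK2 h0).1
  set l := push1 b al with hldef
  have hl' : HasFDerivAt l (fderiv ℝ l (b.Θ p)) (b.Θ p) :=
    (hl.differentiable (by simp) _).hasFDerivAt
  have hΘ : HasFDerivAt b.Θ (fderiv ℝ b.Θ p) p :=
    ((contDiffAt_Θ b hp).differentiableAt (by simp)).hasFDerivAt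
  have hΘ2 : HasFDerivAt (fderiv ℝ b.Θ) (fderiv ℝ (fderiv ℝ b.Θ) p) p :=
    (((contDiffAt_Θ b hp).fderiv_right (m := ∞) (by simp)).differentiableAt
      (by simp)).hasFDerivAt
  have hsym : ∀ v w, fderiv ℝ (fderiv ℝ b.Θ) p v w = fderiv ℝ (fderiv ℝ b.Θ) p w v := by
    intro v w
    have h2 : (2 : WithTop ℕ∞) ≤ ∞ := by
      show ((2 : ℕ∞) : WithTop ℕ∞) ≤ ((⊤ : ℕ∞) : WithTop ℕ∞)
      exact WithTop.coe_le_coe.2 le_top
    exact ((contDiffAt_Θ b hp).isSymmSndFDerivAt (by simpa using h2)) v w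
  -- al q v = l (Θ q) (DΘ q v) near p
  have key : ∀ v w, fderiv ℝ al p w v = fderiv ℝ l (b.Θ p) (fderiv ℝ b.Θ p w) (fderiv ℝ b.Θ p v) +
      l (b.Θ p) (fderiv ℝ (fderiv ℝ b.Θ) p w v) := by
    intro v w
    have h1 : HasFDerivAt (fun q => l (b.Θ q) (fderiv ℝ b.Θ q v)) _ p :=
      (hl'.comp p hΘ).clm_apply (hΘ2.clm_apply (hasFDerivAt_const v p))
    have h2 : HasFDerivAt (fun q => al q v) ((fderiv ℝ al p).flip v) p := by
      have h3 : HasFDerivAt al (fderiv ℝ al p) p :=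
        (((hal p hp).contDiffAt ((isOpen_PD 2).mem_nhds hp)).differentiableAt
          (by simp)).hasFDerivAt
      have h4 := h3.clm_apply (hasFDerivAt_const v p)
      simpa using h4
    have h5 : (fun q => l (b.Θ q) (fderiv ℝ b.Θ q v)) =ᶠ[𝓝 p] fun q => al q v := by
      filter_upwards [(isOpen_PD 2).mem_nhds hp] with q hq
      exact push1_apply b al hq v
    have h6 := (h1.congr_of_eventuallyEq h5.symm).unique h2
    have h7 := congrArg (fun L : (ℂ × ℂ) →L[ℝ] ℝ => L w) h6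
    simp at h7
    rw [← h7]
    ring
  rw [key w v, key v w, hsym v w]
  simp only [dd, sub_apply, ContinuousLinearMap.flip_apply]
  ring

end Vale.Agent.P247.H899
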