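import Vale.Agent.P247.H899.Vert2

/-!
# The representation formula
-/

open scoped ContDiff Topology ComplexConjugate
open Set MeasureTheory Filter Metric

noncomputable section

namespace Vale.Agent.P247.H899

open Vale.Agent.P247.H74 Vale.Agent.P247.H574 Vale.Agent.P247.H264

/-! ## algebra -/

section

variable {D : Data} {b : Box D}

lemma t1_add (p v w : ℂ × ℂ) : t1 b p (v + w) = t1 b p v + t1 b p w := by
  simp only [t1, Prod.fst_add, map_add]; ring

lemma t2_add (p v w : ℂ × ℂ) : t2 b p (v + w) = t2 b p v + t2 b p w := by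
  simp only [t2, Prod.fst_add, Prod.snd_add, map_add]; ring

lemma t1_smul (p : ℂ × ℂ) (r : ℝ) (v : ℂ × ℂ) : t1 b p (r • v) = r * t1 b p v := by
  simp only [t1, Prod.smul_fst, Complex.real_smul, map_mul, Complex.conj_ofReal]; ring

lemma t2_smul (p : ℂ × ℂ) (r : ℝ) (v : ℂ × ℂ) : t2 b p (r • v) = r * t2 b p v := by
  simp only [t2, Prod.smul_fst, Prod.smul_snd, Complex.real_smul, map_mul, Complex.conj_ofReal]; ring

/-- alternating forms on combinations of four vectors -/
lemma alt_expand (B : (ℂ × ℂ) →L[ℝ] (ℂ × ℂ) →L[ℝ] ℝ) (hB : ∀ v, B v v = 0) (a A y z : ℂ × ℂ)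
    (x1 x2 y1 y2 : ℝ) :
    B (x1 • a + x2 • A + (y1 • y + y2 • z)) ((-x2) • a + x1 • A + ((-y2) • y + y1 • z)) =
      (x1 ^ 2 + x2 ^ 2) * B a A + (y1 ^ 2 + y2 ^ 2) * B y z +
      (x1 * y1 + x2 * y2) * (B a z - B A y) + (x2 * y1 - x1 * y2) * (B a y + B A z) := by
  have hanti : ∀ v w, B v w = - B w v := by
    intro v w
    have h := hB (v + w)
    simp only [map_add, add_apply, hB] at h
    linarith
  simp only [map_add, map_smul, add_apply, smul_apply, smul_eq_mul, hB]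
  rw [hanti A a, hanti y a, hanti z a, hanti y A, hanti z A, hanti z y]
  ring

/-- coefficients of the Hermitian part -/
lemma herm_part {p : ℂ × ℂ} (hp : p ∈ PD 2) (B : (ℂ × ℂ) →L[ℝ] (ℂ × ℂ) →L[ℝ] ℝ)
    (hB : ∀ v, B v v = 0) {v w : ℂ × ℂ} (h1 : t1 b p w = Complex.I * t1 b p v)
    (h2 : t2 b p w = Complex.I * t2 b p v) :
    B v w = B (sol b p 1 0) (sol b p Complex.I 0) * ‖t1 b p v‖ ^ 2 +
      B (0, 1) (0, Complex.I) * ‖t2 b p v‖ ^ 2 +
      2 * ((((B (sol b p 1 0) (0, Complex.I) - B (sol b p Complex.I 0) (0, 1)) / 2 : ℝ) +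
        ((B (sol b p 1 0) (0, 1) + B (sol b p Complex.I 0) (0, Complex.I)) / 2 : ℝ) * Complex.I) *
        (conj (t1 b p v) * t2 b p v)).re := by
  have z1 : t1 b p ((0 : ℂ), (1 : ℂ)) = 0 := by simp [t1]
  have z2 : t1 b p ((0 : ℂ), Complex.I) = 0 := by simp [t1]
  have z3 : t2 b p ((0 : ℂ), (1 : ℂ)) = 1 := by simp [t2]
  have z4 : t2 b p ((0 : ℂ), Complex.I) = Complex.I := by simp [t2]
  have ev : v = (t1 b p v).re • sol b p 1 0 + (t1 b p v).im • sol b p Complex.I 0 +
      ((t2 b p v).re • ((0 : ℂ), (1 : ℂ)) + (t2 b p v).im • ((0 : ℂ), Complex.I)) := by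
    refine t_inj b hp ?_ ?_
    · rw [t1_add, t1_add, t1_add, t1_smul, t1_smul, t1_smul, t1_smul, t1_sol b hp, t1_sol b hp,
        z1, z2]
      apply Complex.ext <;> simp
    · rw [t2_add, t2_add, t2_add, t2_smul, t2_smul, t2_smul, t2_smul, t2_sol b, t2_sol b, z3, z4]
      apply Complex.ext <;> simp
  have ew : w = (-(t1 b p v).im) • sol b p 1 0 + (t1 b p v).re • sol b p Complex.I 0 +
      ((-(t2 b p v).im) • ((0 : ℂ), (1 : ℂ)) + (t2 b p v).re • ((0 : ℂ), Complex.I)) := by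
    refine t_inj b hp ?_ ?_
    · rw [t1_add, t1_add, t1_add, t1_smul, t1_smul, t1_smul, t1_smul, t1_sol b hp, t1_sol b hp, h1,
        z1, z2]
      apply Complex.ext <;> simp
    · rw [t2_add, t2_add, t2_add, t2_smul, t2_smul, t2_smul, t2_smul, t2_sol b, t2_sol b, h2, z3, z4]
      apply Complex.ext <;> simp
  conv_lhs => rw [ev, ew]
  rw [alt_expand B hB, ← Complex.normSq_eq_norm_sq, ← Complex.normSq_eq_norm_sq]
  simp only [Complex.normSq_apply, Complex.mul_re, Complex.mul_im, Complex.add_re, Complex.add_im,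
    Complex.conj_re, Complex.conj_im, Complex.ofReal_re, Complex.ofReal_im, Complex.I_re,
    Complex.I_im]
  ring

/-- values on the tangent plane of a sheet -/
lemma plane_value {p : ℂ × ℂ} (hp : p ∈ PD 2) (B : (ℂ × ℂ) →L[ℝ] (ℂ × ℂ) →L[ℝ] ℝ)
    (hB : ∀ v, B v v = 0) (P : ℂ) :
    B (1, P + (b.m p * P + b.A p)) (Complex.I, Complex.I * (P - (b.m p * P + b.A p))) =
      (B (sol b p 1 0) (sol b p Complex.I 0) + B (0, 1) (0, Complex.I) * ‖P‖ ^ 2 +
      2 * ((((B (sol b p 1 0) (0, Complex.I) - B (sol b p Complex.I 0) (0, 1)) / 2 : ℝ) +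
        ((B (sol b p 1 0) (0, 1) + B (sol b p Complex.I 0) (0, Complex.I)) / 2 : ℝ) * Complex.I) *
        P).re) * (1 - ‖b.m p‖ ^ 2) := by
  have h1 : t1 b p (sol b p Complex.I (Complex.I * P)) = Complex.I * t1 b p (sol b p 1 P) := by
    rw [t1_sol b hp, t1_sol b hp, mul_one]
  have h2 : t2 b p (sol b p Complex.I (Complex.I * P)) = Complex.I * t2 b p (sol b p 1 P) := by
    rw [t2_sol b, t2_sol b]
  have h3 := herm_part hp B hB h1 h2
  rw [t1_sol b hp, t2_sol b, norm_one, one_pow, mul_one, map_one, one_mul] at h3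
  rw [← h3]
  have e1 : ((1 : ℂ), P + (b.m p * P + b.A p)) =
      (1 + b.m p).re • sol b p 1 P + (1 + b.m p).im • sol b p Complex.I (Complex.I * P) := by
    refine t_inj b hp ?_ ?_
    · rw [t1_add, t1_smul, t1_smul, t1_sol b hp, t1_sol b hp]
      simp only [t1, map_one, mul_one]
      exact (Complex.re_add_im _).symm
    · rw [t2_add, t2_smul, t2_smul, t2_sol b, t2_sol b]
      simp only [t2, map_one, mul_one]
      have := Complex.re_add_im (1 + b.m p)
      linear_combination (-P) * this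
  have e2 : (Complex.I, Complex.I * (P - (b.m p * P + b.A p))) =
      (Complex.I * (1 - b.m p)).re • sol b p 1 P +
      (Complex.I * (1 - b.m p)).im • sol b p Complex.I (Complex.I * P) := by
    refine t_inj b hp ?_ ?_
    · rw [t1_add, t1_smul, t1_smul, t1_sol b hp, t1_sol b hp]
      simp only [t1, Complex.conj_I]
      have := Complex.re_add_im (Complex.I * (1 - b.m p))
      linear_combination (-1) * this
    · rw [t2_add, t2_smul, t2_smul, t2_sol b, t2_sol b]
      simp only [t2, Complex.conj_I]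
      have := Complex.re_add_im (Complex.I * (1 - b.m p))
      linear_combination (-P) * this
  have hanti : ∀ v w, B v w = - B w v := by
    intro v w
    have h := hB (v + w)
    simp only [map_add, add_apply, hB] at h
    linarith
  rw [e1, e2]
  simp only [map_add, map_smul, add_apply, smul_apply, smul_eq_mul, hB]
  rw [hanti (sol b p Complex.I (Complex.I * P)) (sol b p 1 P), ← Complex.normSq_eq_norm_sq]
  simp only [Complex.normSq_apply, Complex.mul_re, Complex.mul_im, Complex.add_re, Complex.add_im,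
    Complex.sub_re, Complex.sub_im, Complex.one_re, Complex.one_im, Complex.I_re,
    Complex.I_im]
  ring

end

/-! ## the pull-back of a form -/

variable {D : Data} {S : ICur D} {b : Box D} {ρ : ℝ} {N : ℕ} {Y : ℂ → Fin N → ℂ} {G : ℂ × ℂ → ℂ}

variable (b) in
/-- pull-back -/
def pull (φ : R4 → F2) (p : ℂ × ℂ) : (ℂ × ℂ) →L[ℝ] (ℂ × ℂ) →L[ℝ] ℝ :=
  (φ (b.Θ p)).bilinearComp (fderiv ℝ b.Θ p) (fderiv ℝ b.Θ p)

lemma pull_apply (φ : R4 → F2) (p v w : ℂ × ℂ) : pull b φ p v w =
    φ (b.Θ p) (fderiv ℝ b.Θ p v) (fderiv ℝ b.Θ p w) := rfl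

lemma continuousOn_sol (s t : ℂ) : ContinuousOn (fun p => sol b p s t) (PD 2) := by
  have hm := b.m_smooth.continuousOn
  have hA := b.A_smooth.continuousOn
  have h1 : ContinuousOn (fun p => (s - b.m p * conj s) / (1 - (‖b.m p‖ : ℂ) ^ 2)) (PD 2) := by
    refine (continuousOn_const.sub (hm.mul continuousOn_const)).div
      (continuousOn_const.sub ((Complex.continuous_ofReal.comp_continuousOn hm.norm).pow 2)) ?_
    intro p hp
    exact one_sub_ne b hp
  exact h1.prodMk (continuousOn_const.add (hA.mul (Complex.continuous_conj.comp_continuousOn h1)))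

lemma coefKK {φ : R4 → F2} (hφ : CF φ) (hs : tsupport φ ⊆ b.Θ '' PD 1) {V W : ℂ × ℂ → ℂ × ℂ}
    (hV : ContinuousOn V (PD 2)) (hW : ContinuousOn W (PD 2)) :
    KK 1 ((PD 2).indicator fun p => pull b φ p (V p) (W p)) := by
  classical
  have hsub : tsupport φ ⊆ b.Θ '' PD 2 := hs.trans (image_mono (PD_mono one_le_two))
  have hK := isCompact_inv_image b hφ.supp.isCompact hsub
  set K := inv b '' tsupport φ with hKdef
  have hK1 : K ⊆ PD 1 := by
    rintro _ ⟨x, hx, rfl⟩
    obtain ⟨q, hq, rfl⟩ := hs hx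
    rw [inv_Θ b (PD_mono one_le_two hq)]
    exact hq
  have hK2 : K ⊆ PD 2 := hK1.trans (PD_mono one_le_two)
  have h0 : ∀ p, p ∉ K → (PD 2).indicator (fun p => pull b φ p (V p) (W p)) p = 0 := by
    intro p hp
    by_cases h : p ∈ PD 2
    · rw [indicator_of_mem h]
      have h1 : b.Θ p ∉ tsupport φ := fun h2 => hp ⟨_, h2, inv_Θ b h⟩
      rw [pull_apply, image_eq_zero_of_notMem_tsupport h1]
      rfl
    · rw [indicator_of_notMem h]
  have hc : ContinuousOn (fun p => pull b φ p (V p) (W p)) (PD 2) := by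
    have h1 : ContinuousOn (fun p => φ (b.Θ p)) (PD 2) :=
      hφ.cont.comp_continuousOn b.smooth.continuousOn
    have h2 : ContinuousOn (fderiv ℝ b.Θ) (PD 2) :=
      (b.smooth.fderiv_of_isOpen (m := ∞) (isOpen_PD 2) (by simp)).continuousOn
    exact (h1.clm_apply (h2.clm_apply hV)).clm_apply (h2.clm_apply hW)
  have hcont : Continuous ((PD 2).indicator fun p => pull b φ p (V p) (W p)) :=
    continuous_of_off (isOpen_PD 2) hK.isClosed hK2
      (hc.congr fun p hp => indicator_of_mem hp _) h0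
  have hts : tsupport ((PD 2).indicator fun p => pull b φ p (V p) (W p)) ⊆ K := by
    refine closure_minimal (fun p hp => ?_) hK.isClosed
    by_contra h
    exact hp (h0 p h)
  exact ⟨hcont, hK.of_isClosed_subset (isClosed_tsupport _) hts, hts.trans hK1⟩

lemma KK.mkC {r : ℝ} {x y : ℂ × ℂ → ℝ} (hx : KK r x) (hy : KK r y) :
    KK r fun p => (x p : ℂ) + (y p : ℂ) * Complex.I := by
  have h1 : KK r fun p => (x p : ℂ) := hx.comp Complex.continuous_ofReal (by simp)
  have h2 : KK r fun p => (y p : ℂ) * Complex.I :=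
    hy.comp (g := fun t : ℝ => (t : ℂ) * Complex.I) (by fun_prop) (by simp)
  exact h1.add h2

namespace Sh

variable (H : Sh S b ρ N Y G)
include H

/-- the representation formula -/
theorem rep {R : Measure (ℂ × ℂ)} (hR1 : ∀ᵐ p ∂(R), ‖p.1‖ < 1 ∧ ‖p.2‖ ≤ ρ)
    (hR2 : ∀ d, KK 1 d → tv S b d = ∫ p, d p * ‖G p‖ ^ 2 * (1 - ‖b.m p‖ ^ 2) ∂(tau Y) +
      ∫ p, d p ∂(R)) {φ : R4 → F2} (hφ : CF φ) (hs : tsupport φ ⊆ b.Θ '' PD 1) :
    Integrable (fun p : ℂ × ℂ => pull b φ p (1, G p + (b.m p * G p + b.A p))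
      (Complex.I, Complex.I * (G p - (b.m p * G p + b.A p)))) (tau Y) ∧
    S.T φ = ∫ p, pull b φ p (1, G p + (b.m p * G p + b.A p))
      (Complex.I, Complex.I * (G p - (b.m p * G p + b.A p))) ∂(tau Y) +
      ∫ p, pull b φ p (0, 1) (0, Complex.I) ∂(R) := by
  have hsolc : ∀ s t : ℂ, ContinuousOn (fun p => sol b p s t) (PD 2) := continuousOn_sol
  have cc : ∀ v : ℂ × ℂ, ContinuousOn (fun _ : ℂ × ℂ => v) (PD 2) := fun v => continuousOn_const
  have ka := coefKK (b := b) hφ hs (hsolc 1 0) (hsolc Complex.I 0)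
  have kd := coefKK (b := b) hφ hs (cc (0, 1)) (cc (0, Complex.I))
  have k11 := coefKK (b := b) hφ hs (hsolc 1 0) (cc (0, 1))
  have k12 := coefKK (b := b) hφ hs (hsolc 1 0) (cc (0, Complex.I))
  have k21 := coefKK (b := b) hφ hs (hsolc Complex.I 0) (cc (0, 1))
  have k22 := coefKK (b := b) hφ hs (hsolc Complex.I 0) (cc (0, Complex.I))
  set a : ℂ × ℂ → ℝ := (PD 2).indicator fun p =>
    pull b φ p (sol b p 1 0) (sol b p Complex.I 0) with ha
  set d : ℂ × ℂ → ℝ := (PD 2).indicator fun p => pull b φ p (0, 1) (0, Complex.I) with hd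
  set c11 : ℂ × ℂ → ℝ := (PD 2).indicator fun p => pull b φ p (sol b p 1 0) (0, 1) with hc11
  set c12 : ℂ × ℂ → ℝ := (PD 2).indicator fun p =>
    pull b φ p (sol b p 1 0) (0, Complex.I) with hc12
  set c21 : ℂ × ℂ → ℝ := (PD 2).indicator fun p =>
    pull b φ p (sol b p Complex.I 0) (0, 1) with hc21
  set c22 : ℂ × ℂ → ℝ := (PD 2).indicator fun p =>
    pull b φ p (sol b p Complex.I 0) (0, Complex.I) with hc22
  have kx : KK 1 fun p => (c12 p - c21 p) / 2 := by
    have h1 : KK 1 fun p => c12 p / 2 := k12.comp (g := fun t : ℝ => t / 2) (by fun_prop) (by simp)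
    have h2 : KK 1 fun p => -c21 p / 2 :=
      k21.comp (g := fun t : ℝ => -t / 2) (by fun_prop) (by simp)
    have h3 := h1.add h2
    have e : (fun p => c12 p / 2 + -c21 p / 2) = fun p => (c12 p - c21 p) / 2 := by
      funext p; ring
    rwa [e] at h3
  have ky : KK 1 fun p => (c11 p + c22 p) / 2 :=
    (k11.add k22).comp (g := fun t : ℝ => t / 2) (by fun_prop) (by simp)
  have kc := kx.mkC ky
  set c : ℂ × ℂ → ℂ := fun p => (((c12 p - c21 p) / 2 : ℝ) : ℂ) +
    (((c11 p + c22 p) / 2 : ℝ) : ℂ) * Complex.I with hc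
  have e12 : (1 : ℝ) ≤ 2 := one_le_two
  have hcf := H_cf (b := b) (ka.mono e12) (kc.mono e12) (kd.mono e12)
  have halt : ∀ p v, pull b φ p v v = 0 := fun p v => hφ.alt _ _
  -- the form agrees with its Hermitian part on complex lines
  have hval : ∀ x u, φ x u (D.J x u) =
      push2 b (fun p => Hm b p (a p) (c p) (d p)) x u (D.J x u) := by
    intro x u
    by_cases hx : x ∈ b.Θ '' PD 2
    · obtain ⟨p, hp, rfl⟩ := hx
      obtain ⟨v, rfl⟩ := surj_dΘ b hp u
      obtain ⟨w, h1, h2, h3⟩ := exists_J b hp v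
      rw [h3, push2_apply b _ hp, Hm_J b p _ _ _ h1 h2, ← pull_apply,
        herm_part hp (pull b φ p) (halt p) h1 h2]
      simp only [ha, hd, hc, hc11, hc12, hc21, hc22, indicator_of_mem hp]
    · rw [push2_off b _ hx, image_eq_zero_of_notMem_tsupport fun h =>
        hx (image_mono (PD_mono one_le_two) (hs h))]
  have hT : S.T φ = TH S b a c d := by
    have h1 : ∀ φ₁ φ₂ : R4 → F2, CF φ₁ → CF φ₂ → (∀ x u, φ₁ x u (D.J x u) = φ₂ x u (D.J x u)) →
        S.T φ₂ ≤ S.T φ₁ := by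
      intro φ₁ φ₂ h₁ h₂ h
      have h3 : 0 ≤ S.T (φ₁ + -φ₂) := by
        refine S.pos _ (CF.add' h₁ (CF.neg' h₂)) fun x u => ?_
        show 0 ≤ φ₁ x u (D.J x u) + -(φ₂ x u (D.J x u))
        rw [h x u]
        linarith
      rw [S.add _ _ h₁ (CF.neg' h₂), H264.ICur.neg S h₂] at h3
      linarith
    exact le_antisymm (h1 _ _ hcf hφ fun x u => (hval x u).symm) (h1 _ _ hφ hcf hval)
  -- the integrals
  obtain ⟨i1, h1⟩ := H.hell c kc
  have i0 := H.int_kap (ka.int_tau (Y := Y))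
  have i2 := H.int_dGk kd.cont kd.hcs
  have i01 : Integrable (fun p => a p * (1 - ‖b.m p‖ ^ 2) +
      2 * (c p * G p).re * (1 - ‖b.m p‖ ^ 2)) (tau Y) := i0.add i1
  have hcongr : (fun p : ℂ × ℂ => pull b φ p (1, G p + (b.m p * G p + b.A p))
      (Complex.I, Complex.I * (G p - (b.m p * G p + b.A p)))) =ᵐ[tau Y]
      fun p => a p * (1 - ‖b.m p‖ ^ 2) + 2 * (c p * G p).re * (1 - ‖b.m p‖ ^ 2) +
        d p * ‖G p‖ ^ 2 * (1 - ‖b.m p‖ ^ 2) := by
    filter_upwards [H.supPD] with p hp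
    have hp2 := PD_mono e12 hp
    rw [plane_value hp2 (pull b φ p) (halt p)]
    simp only [ha, hd, hc, hc11, hc12, hc21, hc22, indicator_of_mem hp2]
    ring
  refine ⟨(i01.add i2).congr hcongr.symm, ?_⟩
  have hR3 : ∫ p, pull b φ p (0, 1) (0, Complex.I) ∂(R) = ∫ p, d p ∂(R) := by
    refine integral_congr_ae ?_
    filter_upwards [hR1] with p hp
    rw [hd, indicator_of_mem (PD_mono e12 (H.mem_PD1 hp))]
  rw [integral_congr_ae hcongr, integral_add i01 i2, integral_add i0 i1, hR3, ← H.THa ka, ← h1,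
    add_assoc, ← hR2 d kd, hT, TH_split (ka.mono e12) (kc.mono e12) (kd.mono e12)]
  rfl

end Sh

end Vale.Agent.P247.H899
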