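import Vale.Agent.P247.H899.Grad

/-!
# The vertical part of the current in a good box
-/

open scoped ContDiff Topology ComplexConjugate
open Set MeasureTheory Filter Metric

noncomputable section

namespace Vale.Agent.P247.H899

open Vale.Agent.P247.H74 Vale.Agent.P247.H574 Vale.Agent.P247.H264

/-- sheets and gradient -/
structure Sh {D : Data} (S : ICur D) (b : Box D) (ρ : ℝ) (N : ℕ) (Y : ℂ → Fin N → ℂ)
    (G : ℂ × ℂ → ℂ) : Prop where
  hρ : 0 < ρ ∧ ρ < 1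
  hG : GoodBox S b ρ
  hY : ∀ i, Measurable fun z => Y z i
  hYρ : ∀ z i, ‖Y z i‖ ≤ ρ
  hT : ∀ f : ℂ × ℂ → ℝ, KK 1 f → TL S b f = ∫ z in ball (0 : ℂ) 1, ∑ i, f (z, Y z i)
  Gm : StronglyMeasurable G
  G2 : MemLp G 2 (tau Y)
  hell : ∀ c, KK 1 c → Integrable (fun p => 2 * (c p * G p).re * (1 - ‖b.m p‖ ^ 2)) (tau Y) ∧
      ell S b c = ∫ p, 2 * (c p * G p).re * (1 - ‖b.m p‖ ^ 2) ∂(tau Y)

theorem exists_Sh {D : Data} {S : ICur D} {b : Box D} {ρ : ℝ} (hG : GoodBox S b ρ) :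
    ∃ (N : ℕ) (Y : ℂ → Fin N → ℂ) (G : ℂ × ℂ → ℂ), Sh S b ρ N Y G := by
  have hρ : 0 < ρ ∧ ρ < 1 := ⟨hG.1, hG.2.1⟩
  obtain ⟨N, Y, h1, h2, h3⟩ := exists_sheets hG
  obtain ⟨G, h4, h5, h6⟩ := exists_grad hρ h1 h2 h3
  exact ⟨N, Y, G, hρ, hG, h1, h2, h3, h4, h5, h6⟩

variable {D : Data} {S : ICur D} {b : Box D} {ρ : ℝ} {N : ℕ} {Y : ℂ → Fin N → ℂ} {G : ℂ × ℂ → ℂ}

lemma KK.int_tau {E : Type*} [NormedAddCommGroup E] {f : ℂ × ℂ → E} {r : ℝ} (hf : KK r f) :
    Integrable f (tau Y) :=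
  hf.cont.integrable_of_hasCompactSupport hf.hcs

namespace Sh

variable (H : Sh S b ρ N Y G)
include H

lemma sup : ∀ᵐ p ∂(tau Y), ‖p.1‖ < 1 ∧ ‖p.2‖ ≤ ρ := tau_supp H.hY H.hYρ

lemma mem_PD1 {p : ℂ × ℂ} (hp : ‖p.1‖ < 1 ∧ ‖p.2‖ ≤ ρ) : p ∈ PD 1 := by
  refine ⟨?_, ?_⟩
  · rw [mem_ball, dist_zero_right]; exact hp.1
  · rw [mem_ball, dist_zero_right]; exact hp.2.trans_lt H.hρ.2

lemma supPD : ∀ᵐ p ∂(tau Y), p ∈ PD 1 := by
  filter_upwards [H.sup] with p hp using H.mem_PD1 hp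

lemma aem_on {g : ℂ × ℂ → ℂ} (hg : ContinuousOn g (PD 2)) : AEStronglyMeasurable g (tau Y) := by
  have h1 : Measurable ((PD 2).indicator g) := by
    classical
    have : (PD 2).indicator g = (PD 2).piecewise g (fun _ => 0) := by
      funext p
      simp [indicator, piecewise]
    rw [this]
    exact ContinuousOn.measurable_piecewise hg continuousOn_const (isOpen_PD 2).measurableSet
  refine h1.aestronglyMeasurable.congr ?_
  filter_upwards [H.supPD] with p hp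
  exact indicator_of_mem (PD_mono one_le_two hp) g

lemma aem_kap : AEStronglyMeasurable (fun p => 1 - ‖b.m p‖ ^ 2) (tau Y) :=
  aestronglyMeasurable_const.sub ((H.aem_on b.m_smooth.continuousOn).norm.pow 2)

lemma kap_mem : ∀ᵐ p ∂(tau Y), 0 ≤ 1 - ‖b.m p‖ ^ 2 ∧ 1 - ‖b.m p‖ ^ 2 ≤ 1 := by
  filter_upwards [H.supPD] with p hp
  refine ⟨(one_sub_pos b (PD_mono one_le_two hp)).le, ?_⟩
  have := sq_nonneg ‖b.m p‖
  linarith

lemma int_kap {f : ℂ × ℂ → ℝ} (hf : Integrable f (tau Y)) :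
    Integrable (fun p => f p * (1 - ‖b.m p‖ ^ 2)) (tau Y) := by
  refine hf.mono (hf.aestronglyMeasurable.mul H.aem_kap) ?_
  filter_upwards [H.kap_mem] with p hp
  rw [norm_mul, Real.norm_of_nonneg hp.1]
  exact mul_le_of_le_one_right (norm_nonneg _) hp.2

lemma G2int : Integrable (fun p => ‖G p‖ ^ 2) (tau Y) := H.G2.integrable_norm_pow (by norm_num)

lemma int_dG {f : ℂ × ℂ → ℝ} (hf : Continuous f) (hfc : HasCompactSupport f) :
    Integrable (fun p => f p * ‖G p‖ ^ 2) (tau Y) := by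
  obtain ⟨C, hC⟩ := hfc.exists_bound_of_continuous hf
  refine (H.G2int.const_mul C).mono (hf.aestronglyMeasurable.mul
    H.G2int.aestronglyMeasurable) (Eventually.of_forall fun p => ?_)
  rw [norm_mul, norm_mul]
  exact mul_le_mul_of_nonneg_right ((hC p).trans (le_abs_self _)) (norm_nonneg _)

lemma int_dGk {f : ℂ × ℂ → ℝ} (hf : Continuous f) (hfc : HasCompactSupport f) :
    Integrable (fun p => f p * ‖G p‖ ^ 2 * (1 - ‖b.m p‖ ^ 2)) (tau Y) :=
  H.int_kap (H.int_dG hf hfc)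

/-- the horizontal part -/
lemma THa {a : ℂ × ℂ → ℝ} (ha : KK 1 a) : TH S b a (fun _ => 0) (fun _ => 0) =
    ∫ p, a p * (1 - ‖b.m p‖ ^ 2) ∂(tau Y) := by
  rw [TH_a, H.hT _ ha.kap, ← tau_integral H.hY ha.kap.int_tau]

theorem vert_pos {d : ℂ × ℂ → ℝ} (hd : KK 1 d) (hd0 : ∀ p, 0 ≤ d p) :
    ∫ p, d p * ‖G p‖ ^ 2 * (1 - ‖b.m p‖ ^ 2) ∂(tau Y) ≤ TH S b (fun _ => 0) (fun _ => 0) d := by
  classical
  have e12 : (1 : ℝ) ≤ 2 := one_le_two
  have hsq : KK 1 fun p => Real.sqrt (d p) := hd.comp Real.continuous_sqrt Real.sqrt_zero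
  set F : ℂ × ℂ → ℂ := fun p => -((Real.sqrt (d p) : ℂ) * G p) with hF
  obtain ⟨χ, hχ, hχ1, hχ0, hχl⟩ := exists_chi hd.hcs.isCompact hd.sub
  have hFm : MemLp F 2 (tau Y) := by
    obtain ⟨C, hC⟩ := hsq.hcs.exists_bound_of_continuous hsq.cont
    refine H.G2.of_le_mul (c := C) ?_ (Eventually.of_forall fun p => ?_)
    · exact ((Complex.continuous_ofReal.comp hsq.cont).aestronglyMeasurable.mul
        H.Gm.aestronglyMeasurable).neg
    · rw [hF]
      simp only [norm_neg, norm_mul, Complex.norm_real]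
      exact mul_le_mul_of_nonneg_right (hC p) (norm_nonneg _)
  have hFF : ∀ p, ‖F p‖ ^ 2 = d p * ‖G p‖ ^ 2 := by
    intro p
    rw [hF]
    simp only [norm_neg, norm_mul, Complex.norm_real, mul_pow, Real.norm_eq_abs, sq_abs]
    rw [Real.sq_sqrt (hd0 p)]
  -- the basic inequality
  have key : ∀ g : ℂ × ℂ → ℂ, KK 1 g → ∫ p, d p * ‖G p‖ ^ 2 * (1 - ‖b.m p‖ ^ 2) ∂(tau Y) -
      ∫ p, ‖F p - g p‖ ^ 2 ∂(tau Y) ≤ TH S b (fun _ => 0) (fun _ => 0) d := by
    intro g hg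
    have k1 : KK 1 fun p => ‖g p‖ ^ 2 :=
      hg.comp (g := fun x : ℂ => ‖x‖ ^ 2) (by fun_prop) (by simp)
    have k2 : KK 1 fun p => conj (g p) * (Real.sqrt (d p) : ℂ) := by
      refine hg.of_zero ((Complex.continuous_conj.comp hg.cont).mul
        (Complex.continuous_ofReal.comp hsq.cont)) fun p hp => ?_
      rw [hp]; simp
    have h1 : 0 ≤ TH S b (fun p => ‖g p‖ ^ 2) (fun p => conj (g p) * (Real.sqrt (d p) : ℂ)) d := by
      refine TH_nonneg (k1.mono e12) (k2.mono e12) (hd.mono e12) fun p s t => ?_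
      have h2 : 0 ≤ ‖g p * s + (Real.sqrt (d p) : ℂ) * t‖ ^ 2 := sq_nonneg _
      have h3 : ‖g p * s + (Real.sqrt (d p) : ℂ) * t‖ ^ 2 = ‖g p‖ ^ 2 * ‖s‖ ^ 2 +
          d p * ‖t‖ ^ 2 + 2 * (conj (g p) * (Real.sqrt (d p) : ℂ) * (conj s * t)).re := by
        have h4 : Real.sqrt (d p) * Real.sqrt (d p) = d p := Real.mul_self_sqrt (hd0 p)
        rw [← Complex.normSq_eq_norm_sq, ← Complex.normSq_eq_norm_sq, ← Complex.normSq_eq_norm_sq,
          ← Complex.normSq_eq_norm_sq, Complex.normSq_add, Complex.normSq_mul, Complex.normSq_mul,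
          Complex.normSq_ofReal, h4]
        congr 2
        rw [map_mul, Complex.conj_ofReal]
        simp only [Complex.mul_re, Complex.mul_im, Complex.conj_re, Complex.conj_im,
          Complex.ofReal_re, Complex.ofReal_im]
        ring
      rw [h3] at h2
      exact h2
    obtain ⟨h2, h3⟩ := H.hell _ k2
    have h4 : TH S b (fun _ => 0) (fun p => conj (g p) * (Real.sqrt (d p) : ℂ)) (fun _ => 0) =
      ell S b (fun p => conj (g p) * (Real.sqrt (d p) : ℂ)) := rfl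
    rw [TH_split (k1.mono e12) (k2.mono e12) (hd.mono e12), H.THa k1, h4, h3] at h1
    have hgm : MemLp g 2 (tau Y) := hg.cont.memLp_of_hasCompactSupport hg.hcs
    have i1 : Integrable (fun p => ‖F p - g p‖ ^ 2) (tau Y) := by
      have := (hFm.sub hgm).integrable_norm_pow (by norm_num)
      exact this
    have i2 := H.int_kap i1
    have i3 := H.int_dGk hd.cont hd.hcs
    have i4 := H.int_kap k1.int_tau
    have h5 : ∫ p, ‖F p - g p‖ ^ 2 * (1 - ‖b.m p‖ ^ 2) ∂(tau Y) =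
        ∫ p, ‖g p‖ ^ 2 * (1 - ‖b.m p‖ ^ 2) ∂(tau Y) +
        ∫ p, 2 * (conj (g p) * (Real.sqrt (d p) : ℂ) * G p).re * (1 - ‖b.m p‖ ^ 2) ∂(tau Y) +
        ∫ p, d p * ‖G p‖ ^ 2 * (1 - ‖b.m p‖ ^ 2) ∂(tau Y) := by
      have i5 : Integrable (fun p => ‖g p‖ ^ 2 * (1 - ‖b.m p‖ ^ 2) +
          2 * (conj (g p) * (Real.sqrt (d p) : ℂ) * G p).re * (1 - ‖b.m p‖ ^ 2)) (tau Y) :=
        i4.add h2
      rw [← integral_add i4 h2, ← integral_add i5 i3]
      refine integral_congr_ae (Eventually.of_forall fun p => ?_)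
      simp only
      rw [← add_mul, ← add_mul]
      congr 1
      rw [← hFF p]
      have h6 : (conj (g p) * (Real.sqrt (d p) : ℂ) * G p).re = - (conj (g p) * F p).re := by
        rw [hF]
        simp only [mul_neg, Complex.neg_re, neg_neg, mul_assoc]
      rw [h6, ← Complex.normSq_eq_norm_sq, ← Complex.normSq_eq_norm_sq,
        ← Complex.normSq_eq_norm_sq]
      simp only [Complex.normSq_apply, Complex.sub_re, Complex.sub_im, Complex.mul_re,
        Complex.conj_re, Complex.conj_im]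
      ring
    have h6 : ∫ p, ‖F p - g p‖ ^ 2 * (1 - ‖b.m p‖ ^ 2) ∂(tau Y) ≤
        ∫ p, ‖F p - g p‖ ^ 2 ∂(tau Y) := by
      refine integral_mono_ae i2 i1 ?_
      filter_upwards [H.kap_mem] with p hp
      exact mul_le_of_le_one_right (sq_nonneg _) hp.2
    linarith
  -- density
  refine le_of_forall_pos_sub_le fun ε hε => ?_
  obtain ⟨g, hgc, hgε, hgcont, hgm⟩ := hFm.exists_hasCompactSupport_eLpNorm_sub_le
    (by norm_num) (ε := ENNReal.ofReal (Real.sqrt ε)) (by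
      simp only [ne_eq, ENNReal.ofReal_eq_zero, not_le]; exact Real.sqrt_pos.2 hε)
  set g' : ℂ × ℂ → ℂ := fun p => (χ p : ℂ) * g p with hg'
  have hg'K : KK 1 g' := by
    refine hχ.of_zero ((Complex.continuous_ofReal.comp hχ.cont).mul hgcont) fun p hp => ?_
    rw [hg']; simp only; rw [hp]; simp
  have h1 := key g' hg'K
  have h2 : ∫ p, ‖F p - g' p‖ ^ 2 ∂(tau Y) ≤ ε := by
    have h3 : ∀ p, ‖F p - g' p‖ ^ 2 ≤ ‖F p - g p‖ ^ 2 := by
      intro p
      have h4 : F p - g' p = (χ p : ℂ) * (F p - g p) := by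
        have h5 : F p = (χ p : ℂ) * F p := by
          by_cases hp : d p = 0
          · have : F p = 0 := by rw [hF]; simp only; rw [hp]; simp
            rw [this, mul_zero]
          · rw [hχ1 p (subset_tsupport d hp)]; simp
        rw [mul_sub, ← h5]
      rw [h4, norm_mul, Complex.norm_real, Real.norm_of_nonneg (hχ0 p)]
      have h6 : χ p * ‖F p - g p‖ ≤ ‖F p - g p‖ := mul_le_of_le_one_left (norm_nonneg _) (hχl p)
      exact pow_le_pow_left₀ (mul_nonneg (hχ0 p) (norm_nonneg _)) h6 2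
    have hsub : MemLp (F - g) 2 (tau Y) := hFm.sub hgm
    have h4 : ∫ p, ‖F p - g' p‖ ^ 2 ∂(tau Y) ≤ ∫ p, ‖F p - g p‖ ^ 2 ∂(tau Y) := by
      refine integral_mono_of_nonneg (Eventually.of_forall fun p => sq_nonneg _) ?_
        (Eventually.of_forall h3)
      exact hsub.integrable_norm_pow (by norm_num)
    have h5 := norm_toLp_two hsub
    rw [Lp.norm_toLp] at h5
    have h6 : (eLpNorm (F - g) 2 (tau Y)).toReal ≤ Real.sqrt ε := by
      have := ENNReal.toReal_mono ENNReal.ofReal_ne_top hgε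
      rwa [ENNReal.toReal_ofReal (Real.sqrt_nonneg _)] at this
    rw [h5] at h6
    have h7 := (Real.sqrt_le_sqrt_iff hε.le).1 h6
    exact h4.trans h7
  linarith

end Sh

end Vale.Agent.P247.H899
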