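import Vale.Agent.P247.H899.Vert

/-!
# The vertical measure
-/

open scoped ContDiff Topology ComplexConjugate
open Set MeasureTheory Filter Metric

noncomputable section

namespace Vale.Agent.P247.H899

open Vale.Agent.P247.H74 Vale.Agent.P247.H574 Vale.Agent.P247.H264

variable {D : Data} {S : ICur D} {b : Box D} {ρ : ℝ} {N : ℕ} {Y : ℂ → Fin N → ℂ} {G : ℂ × ℂ → ℂ}

variable (S b) in
/-- the vertical part of the functional -/
def tv (d : ℂ × ℂ → ℝ) : ℝ := TH S b (fun _ => 0) (fun _ => 0) d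

lemma tv_add {d d' : ℂ × ℂ → ℝ} (hd : KK 2 d) (hd' : KK 2 d') :
    tv S b (fun p => d p + d' p) = tv S b d + tv S b d' := by
  have z := KK.zero (r := 2) ℝ
  have zc := KK.zero (r := 2) ℂ
  have h := TH_add (S := S) (b := b) z zc hd z zc hd'
  simp only [add_zero] at h
  exact h

lemma tv_smul {d : ℂ × ℂ → ℝ} (hd : KK 2 d) (r : ℝ) :
    tv S b (fun p => r * d p) = r * tv S b d := by
  have z := KK.zero (r := 2) ℝ
  have zc := KK.zero (r := 2) ℂ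
  have h := TH_smul (S := S) (b := b) z zc hd r
  simp only [mul_zero] at h
  exact h

lemma tv_nonneg {d : ℂ × ℂ → ℝ} (hd : KK 2 d) (h : ∀ p, 0 ≤ d p) : 0 ≤ tv S b d := by
  have z := KK.zero (r := 2) ℝ
  have zc := KK.zero (r := 2) ℂ
  refine TH_nonneg z zc hd fun p s t => ?_
  have := mul_nonneg (h p) (sq_nonneg ‖t‖)
  simpa using this

lemma tv_mono {d d' : ℂ × ℂ → ℝ} (hd : KK 2 d) (hd' : KK 2 d') (h : ∀ p, d p ≤ d' p) :
    tv S b d ≤ tv S b d' := by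
  have h1 : KK 2 fun p => (-1) * d p := hd.comp (g := fun x : ℝ => (-1) * x) (by fun_prop) (by simp)
  have h2 := tv_add (S := S) (b := b) hd' h1
  rw [tv_smul hd] at h2
  have h3 : 0 ≤ tv S b (fun p => d' p + (-1) * d p) :=
    tv_nonneg (hd'.add h1) fun p => by linarith [h p]
  linarith

lemma tv_zero : tv S b (fun _ => 0) = 0 := by
  have h := tv_smul (S := S) (b := b) (KK.zero (r := 2) ℝ) 0
  simpa using h

lemma KK.rmul {r : ℝ} {χ f : ℂ × ℂ → ℝ} (hχ : KK r χ) (hf : Continuous f) :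
    KK r fun p => χ p * f p :=
  hχ.of_zero (hχ.cont.mul hf) fun p hp => by rw [hp, zero_mul]

namespace Sh

variable (H : Sh S b ρ N Y G)
include H

lemma vert_pos2 {χ : ℂ × ℂ → ℝ} (hχ : KK 2 χ) (hχ1 : ∀ p ∈ PD 1, χ p = 1) (hχ0 : ∀ p, 0 ≤ χ p)
    {f : ℂ × ℂ → ℝ} (hf : Continuous f) (hfc : HasCompactSupport f) (hf0 : ∀ p, 0 ≤ f p) :
    ∫ p, f p * ‖G p‖ ^ 2 * (1 - ‖b.m p‖ ^ 2) ∂(tau Y) ≤ tv S b (fun p => χ p * f p) := by
  have hk : ∀ k : ℕ, ∃ χ' : ℂ × ℂ → ℝ, KK 1 χ' ∧ (∀ p ∈ closedBall (0 : ℂ) (1 - 1 / ((k : ℝ) + 1)) ×ˢ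
      closedBall (0 : ℂ) (1 - 1 / ((k : ℝ) + 1)), χ' p = 1) ∧ (∀ p, 0 ≤ χ' p) ∧ ∀ p, χ' p ≤ 1 := by
    intro k
    have h1 : 1 - 1 / ((k : ℝ) + 1) < 1 := by
      have : 0 < 1 / ((k : ℝ) + 1) := by positivity
      linarith
    exact exists_chi ((isCompact_closedBall _ _).prod (isCompact_closedBall _ _))
      (prod_mono (closedBall_subset_ball h1) (closedBall_subset_ball h1))
  choose χ' h1 h2 h3 h4 using hk
  have h5 : ∀ k, ∫ p, χ' k p * f p * ‖G p‖ ^ 2 * (1 - ‖b.m p‖ ^ 2) ∂(tau Y) ≤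
      tv S b (fun p => χ p * f p) := by
    intro k
    have e1 := (h1 k).rmul hf
    refine (H.vert_pos e1 fun p => mul_nonneg (h3 k p) (hf0 p)).trans ?_
    refine tv_mono (e1.mono one_le_two) (hχ.rmul hf) fun p => ?_
    by_cases hp : p ∈ PD 1
    · rw [hχ1 p hp]
      exact mul_le_mul_of_nonneg_right (h4 k p) (hf0 p)
    · rw [(h1 k).eq_zero hp, zero_mul]
      exact mul_nonneg (hχ0 p) (hf0 p)
  refine le_of_tendsto' (x := (atTop : Filter ℕ))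
    (f := fun k => ∫ p, χ' k p * f p * ‖G p‖ ^ 2 * (1 - ‖b.m p‖ ^ 2) ∂(tau Y)) ?_ h5
  refine tendsto_integral_of_dominated_convergence
    (fun p => f p * ‖G p‖ ^ 2 * (1 - ‖b.m p‖ ^ 2)) (fun k => ?_) (H.int_dGk hf hfc)
    (fun k => ?_) ?_
  · exact (H.int_dGk ((h1 k).cont.mul hf) ((h1 k).rmul hf).hcs).aestronglyMeasurable
  · filter_upwards [H.kap_mem] with p hp
    have e1 : 0 ≤ f p * ‖G p‖ ^ 2 * (1 - ‖b.m p‖ ^ 2) :=
      mul_nonneg (mul_nonneg (hf0 p) (sq_nonneg _)) hp.1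
    have e2 : χ' k p * f p * ‖G p‖ ^ 2 * (1 - ‖b.m p‖ ^ 2) =
        χ' k p * (f p * ‖G p‖ ^ 2 * (1 - ‖b.m p‖ ^ 2)) := by ring
    rw [e2, norm_mul, Real.norm_of_nonneg (h3 k p), Real.norm_of_nonneg e1]
    exact mul_le_of_le_one_left e1 (h4 k p)
  · filter_upwards [H.supPD] with p hp
    have hp1 : ‖p.1‖ < 1 := by simpa using hp.1
    have hp2 : ‖p.2‖ < 1 := by simpa using hp.2
    have e1 : ∀ᶠ k : ℕ in atTop, 1 / ((k : ℝ) + 1) < 1 - ‖p.1‖ :=
      tendsto_one_div_add_atTop_nhds_zero_nat.eventually (gt_mem_nhds (by linarith))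
    have e2 : ∀ᶠ k : ℕ in atTop, 1 / ((k : ℝ) + 1) < 1 - ‖p.2‖ :=
      tendsto_one_div_add_atTop_nhds_zero_nat.eventually (gt_mem_nhds (by linarith))
    refine tendsto_const_nhds.congr' ?_
    filter_upwards [e1, e2] with k hk1 hk2
    rw [h2 k p ⟨?_, ?_⟩, one_mul]
    · rw [mem_closedBall, dist_zero_right]; linarith
    · rw [mem_closedBall, dist_zero_right]; linarith

theorem exists_vert : ∃ R : Measure (ℂ × ℂ), R univ < ⊤ ∧ (∀ᵐ p ∂(R), ‖p.1‖ < 1 ∧ ‖p.2‖ ≤ ρ) ∧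
    ∀ d, KK 1 d → tv S b d = ∫ p, d p * ‖G p‖ ^ 2 * (1 - ‖b.m p‖ ^ 2) ∂(tau Y) +
      ∫ p, d p ∂(R) := by
  obtain ⟨χ, hχ, hχ1, hχ0, -⟩ := exists_chi2
  set Lf : (ℂ × ℂ → ℝ) → ℝ := fun f => tv S b (fun p => χ p * f p) -
    ∫ p, f p * ‖G p‖ ^ 2 * (1 - ‖b.m p‖ ^ 2) ∂(tau Y) with hLf
  have hadd : ∀ f g : ℂ × ℂ → ℝ, Continuous f → HasCompactSupport f → Continuous g →
      HasCompactSupport g → Lf (fun p => f p + g p) = Lf f + Lf g := by
    intro f g hf hfc hg hgc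
    have h1 : (fun p => χ p * (f p + g p)) = fun p => χ p * f p + χ p * g p := by
      funext p
      ring
    have h2 : ∫ p, (f p + g p) * ‖G p‖ ^ 2 * (1 - ‖b.m p‖ ^ 2) ∂(tau Y) =
        ∫ p, f p * ‖G p‖ ^ 2 * (1 - ‖b.m p‖ ^ 2) ∂(tau Y) +
        ∫ p, g p * ‖G p‖ ^ 2 * (1 - ‖b.m p‖ ^ 2) ∂(tau Y) := by
      rw [← integral_add (H.int_dGk hf hfc) (H.int_dGk hg hgc)]
      refine integral_congr_ae (Eventually.of_forall fun p => ?_)
      ring
    simp only [hLf]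
    rw [h1, h2, tv_add (hχ.rmul hf) (hχ.rmul hg)]
    ring
  have hsmul : ∀ (c : ℝ) (f : ℂ × ℂ → ℝ), Continuous f → HasCompactSupport f →
      Lf (fun p => c * f p) = c * Lf f := by
    intro c f hf hfc
    have h1 : (fun p => χ p * (c * f p)) = fun p => c * (χ p * f p) := by
      funext p
      ring
    have h2 : ∫ p, (c * f p) * ‖G p‖ ^ 2 * (1 - ‖b.m p‖ ^ 2) ∂(tau Y) =
        c * ∫ p, f p * ‖G p‖ ^ 2 * (1 - ‖b.m p‖ ^ 2) ∂(tau Y) := by
      rw [← integral_const_mul]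
      refine integral_congr_ae (Eventually.of_forall fun p => ?_)
      ring
    simp only [hLf]
    rw [h1, h2, tv_smul (hχ.rmul hf)]
    ring
  have hpos : ∀ f : ℂ × ℂ → ℝ, Continuous f → HasCompactSupport f → (∀ p, 0 ≤ f p) →
      0 ≤ Lf f := by
    intro f hf hfc hf0
    have h1 := H.vert_pos2 hχ hχ1 hχ0 hf hfc hf0
    simp only [hLf]
    linarith
  let Λ : CompactlySupportedContinuousMap (ℂ × ℂ) ℝ →ₚ[ℝ] ℝ :=
    PositiveLinearMap.mk₀
      { toFun := fun f => Lf f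
        map_add' := fun f g => hadd f g f.continuous f.hasCompactSupport g.continuous
          g.hasCompactSupport
        map_smul' := fun c f => hsmul c f f.continuous f.hasCompactSupport }
      (fun f hf => hpos f f.continuous f.hasCompactSupport (fun p => hf p))
  set Q₀ : Measure (ℂ × ℂ) := RealRMK.rieszMeasure Λ with hR'
  have hreg : Q₀.Regular := by rw [hR']; infer_instance
  have hR : ∀ f : ℂ × ℂ → ℝ, Continuous f → HasCompactSupport f → ∫ p, f p ∂(Q₀) =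
      tv S b (fun p => χ p * f p) - ∫ p, f p * ‖G p‖ ^ 2 * (1 - ‖b.m p‖ ^ 2) ∂(tau Y) :=
    fun f hf hfc => RealRMK.integral_rieszMeasure Λ ⟨⟨f, hf⟩, hfc⟩
  have hfin : Q₀ (PD 1) < ⊤ := by
    have h1 : PD 1 ⊆ closedBall (0 : ℂ) 1 ×ˢ closedBall (0 : ℂ) 1 :=
      prod_mono ball_subset_closedBall ball_subset_closedBall
    exact (measure_mono h1).trans_lt
      ((isCompact_closedBall _ _).prod (isCompact_closedBall _ _)).measure_lt_top
  have hmain : ∀ d, KK 1 d → tv S b d = ∫ p, d p * ‖G p‖ ^ 2 * (1 - ‖b.m p‖ ^ 2) ∂(tau Y) +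
      ∫ p in PD 1, d p ∂(Q₀) := by
    intro d hd
    have h1 : (fun p => χ p * d p) = d := by
      funext p
      by_cases hp : p ∈ PD 1
      · rw [hχ1 p hp, one_mul]
      · rw [hd.eq_zero hp, mul_zero]
    have h2 := hR d hd.cont hd.hcs
    rw [h1] at h2
    rw [setIntegral_eq_integral_of_forall_compl_eq_zero (fun p hp => hd.eq_zero hp), h2]
    ring
  have hfinR : IsFiniteMeasure (Q₀.restrict (PD 1)) := isFiniteMeasure_restrict.2 hfin.ne
  refine ⟨Q₀.restrict (PD 1), by rwa [Measure.restrict_apply_univ], ?_, hmain⟩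
  -- the support
  have hk : ∀ k : ℕ, ∀ᵐ p ∂(Q₀.restrict (PD 1)), max 0 ((1 - 1 / ((k : ℝ) + 1)) - ‖p.1‖) *
        max 0 (min (‖p.2‖ - ρ) ((1 - 1 / ((k : ℝ) + 1)) - ‖p.2‖)) = 0 := by
    intro k
    have hr : 1 - 1 / ((k : ℝ) + 1) < 1 := by
      have : 0 < 1 / ((k : ℝ) + 1) := by positivity
      linarith
    set f : ℂ × ℂ → ℝ := fun p => max 0 ((1 - 1 / ((k : ℝ) + 1)) - ‖p.1‖) *
        max 0 (min (‖p.2‖ - ρ) ((1 - 1 / ((k : ℝ) + 1)) - ‖p.2‖)) with hfdef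
    have hfk : KK 1 f := by
      refine KK.of_prod (r := 1 - 1 / ((k : ℝ) + 1)) (s := 1 - 1 / ((k : ℝ) + 1)) (by fun_prop)
        hr hr ?_
      rintro p (h | h)
      · simp only [hfdef]
        rw [max_eq_left (a := (0 : ℝ)) (b := 1 - 1 / ((k : ℝ) + 1) - ‖p.1‖) (by linarith), zero_mul]
      · simp only [hfdef]
        rw [max_eq_left (a := (0 : ℝ)) (b := min (‖p.2‖ - ρ) ((1 - 1 / ((k : ℝ) + 1)) - ‖p.2‖))
          ((min_le_right _ _).trans (by linarith)), mul_zero]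
    have hf0 : ∀ p : ℂ × ℂ, ‖p.2‖ ≤ ρ → f p = 0 := by
      intro p hp
      simp only [hfdef]
      rw [max_eq_left (a := (0 : ℝ)) (b := min (‖p.2‖ - ρ) ((1 - 1 / ((k : ℝ) + 1)) - ‖p.2‖))
        ((min_le_left _ _).trans (by linarith)), mul_zero]
    have h1 : tv S b f = 0 := by
      rw [← tv_zero (S := S) (b := b)]
      exact TH_congr_good H.hG (KK.zero ℝ) (KK.zero ℂ) hfk (KK.zero ℝ) (KK.zero ℂ) (KK.zero ℝ)
        fun p hp => ⟨rfl, rfl, hf0 p hp.le⟩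
    have h2 : ∫ p, f p * ‖G p‖ ^ 2 * (1 - ‖b.m p‖ ^ 2) ∂(tau Y) = 0 := by
      rw [← integral_zero (ℂ × ℂ) ℝ (μ := tau Y)]
      refine integral_congr_ae ?_
      filter_upwards [H.sup] with p hp
      rw [hf0 p hp.2, zero_mul, zero_mul]
    have h3 := hmain f hfk
    rw [h1, h2, zero_add] at h3
    have h4 : Integrable f (Q₀.restrict (PD 1)) := hfk.cont.integrable_of_hasCompactSupport hfk.hcs
    exact (integral_eq_zero_iff_of_nonneg (fun p =>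
      mul_nonneg (le_max_left _ _) (le_max_left _ _)) h4).1 h3.symm
  filter_upwards [ae_all_iff.2 hk, ae_restrict_mem (isOpen_PD 1).measurableSet] with p hp hpP
  have hp1 : ‖p.1‖ < 1 := by simpa using hpP.1
  have hp2 : ‖p.2‖ < 1 := by simpa using hpP.2
  refine ⟨hp1, ?_⟩
  by_contra h
  push Not at h
  obtain ⟨k, hk1⟩ := exists_nat_one_div_lt (show 0 < 1 - max ‖p.1‖ ‖p.2‖ by
    have := max_lt hp1 hp2
    linarith)
  have e1 := le_max_left ‖p.1‖ ‖p.2‖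
  have e2 := le_max_right ‖p.1‖ ‖p.2‖
  have h5 : 0 < max 0 ((1 - 1 / ((k : ℝ) + 1)) - ‖p.1‖) *
        max 0 (min (‖p.2‖ - ρ) ((1 - 1 / ((k : ℝ) + 1)) - ‖p.2‖)) := by
    refine mul_pos (lt_max_of_lt_right (by linarith)) (lt_max_of_lt_right (lt_min ?_ ?_))
    · linarith
    · linarith
  exact absurd (hp k) h5.ne'

end Sh

end Vale.Agent.P247.H899
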