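import Vale.Agent.P247.H899.MGX

/-!
# VERT: the vertical part vanishes where the multigraph is smooth

Integration by parts on smooth sheets.
-/

open scoped ContDiff Topology ComplexConjugate
open Set MeasureTheory Filter Metric

noncomputable section

namespace Vale.Agent.P247.H899

open Vale.Agent.P247.H74 Vale.Agent.P247.H574

/-- Wirtinger derivatives -/
def wz (y : ℂ → ℂ) (z : ℂ) : ℂ := (fderiv ℝ y z 1 - Complex.I * fderiv ℝ y z Complex.I) / 2
def wb (y : ℂ → ℂ) (z : ℂ) : ℂ := (fderiv ℝ y z 1 + Complex.I * fderiv ℝ y z Complex.I) / 2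
def rz (ζ : ℂ → ℝ) (z : ℂ) : ℂ :=
  ((fderiv ℝ ζ z 1 : ℝ) - Complex.I * (fderiv ℝ ζ z Complex.I : ℝ)) / 2
def rb (ζ : ℂ → ℝ) (z : ℂ) : ℂ :=
  ((fderiv ℝ ζ z 1 : ℝ) + Complex.I * (fderiv ℝ ζ z Complex.I : ℝ)) / 2

/-- the integrand of `quad` for `f = ζ(z) y` -/
def QQ (ζ : ℂ → ℝ) (z y P Q : ℂ) : ℂ :=
  rz ζ z * y * conj P - rb ζ z * y * conj Q + ζ z * ((‖P‖ ^ 2 - ‖Q‖ ^ 2 : ℝ) : ℂ)

lemma fderiv_zero_of_notMem {E F : Type*} [NormedAddCommGroup E] [NormedSpace ℝ E]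
    [NormedAddCommGroup F] [NormedSpace ℝ F] {f : E → F} {x : E} (hx : x ∉ tsupport f) :
    fderiv ℝ f x = 0 :=
  image_eq_zero_of_notMem_tsupport fun h => hx (tsupport_fderiv_subset ℝ h)

lemma QQ_zero {ζ : ℂ → ℝ} {z : ℂ} (hz : z ∉ tsupport ζ) (y P Q : ℂ) : QQ ζ z y P Q = 0 := by
  rw [QQ, rz, rb, fderiv_zero_of_notMem hz, image_eq_zero_of_notMem_tsupport hz]
  simp

/-- integrability by gluing -/
lemma int_glue {U K : Set ℂ} (hU : IsOpen U) (hK : IsCompact K) (hKU : K ⊆ U) {F : ℂ → ℂ}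
    (hF : ContinuousOn F U) (h0 : ∀ z, z ∉ K → F z = 0) : Integrable F :=
  (continuous_of_off hU hK.isClosed hKU hF h0).integrable_of_hasCompactSupport
    (HasCompactSupport.intro hK h0)

lemma ibp_QQ {U : Set ℂ} (hU : IsOpen U) {y : ℂ → ℂ} (hy : ContDiffOn ℝ ∞ y U) {ζ : ℂ → ℝ}
    (hζ : ContDiff ℝ ∞ ζ) (hc : HasCompactSupport ζ) (ht : tsupport ζ ⊆ U) :
    Integrable (fun z => QQ ζ z (y z) (wz y z) (wb y z)) ∧
      ∫ z, QQ ζ z (y z) (wz y z) (wb y z) = 0 := by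
  have hK : IsCompact (tsupport ζ) := hc
  set u : ℂ → ℂ := fun z => (ζ z : ℂ) * y z with hudef
  have hu0 : ∀ z, z ∉ tsupport ζ → u z = 0 := fun z hz => by
    simp only [hudef, image_eq_zero_of_notMem_tsupport hz]; simp
  have hζc : ContDiff ℝ ∞ (fun z => (ζ z : ℂ)) := Complex.ofRealCLM.contDiff.comp hζ
  have hu : ContDiff ℝ ∞ u :=
    contDiff_of_off hU (isClosed_tsupport ζ) ht (hζc.contDiffOn.mul hy) hu0
  have hut : tsupport u ⊆ tsupport ζ := closure_minimal (fun z hz => by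
    by_contra h; exact hz (hu0 z h)) (isClosed_tsupport ζ)
  set v : ℂ → ℂ := fun z => conj (y z) with hvdef
  have hv : ContDiffOn ℝ ∞ v U := Complex.conjCLE.contDiff.comp_contDiffOn hy
  have hv1 : ContDiffOn ℝ ∞ (fderiv ℝ v) U := hv.fderiv_of_isOpen hU (by simp)
  have hvw : ∀ w, ContDiffOn ℝ ∞ (fun z => fderiv ℝ v z w) U := fun w =>
    hv1.clm_apply contDiffOn_const
  have hvww : ∀ w w', ContinuousOn (fun z => fderiv ℝ (fun x => fderiv ℝ v x w) z w') U :=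
    fun w w' => (((hvw w).fderiv_of_isOpen (m := ∞) hU (by simp)).clm_apply
      contDiffOn_const).continuousOn
  have huw : ∀ w, Continuous fun z => fderiv ℝ u z w := fun w =>
    (hu.continuous_fderiv (by simp)).clm_apply continuous_const
  have hfu0 : ∀ z, z ∉ tsupport ζ → fderiv ℝ u z = 0 := fun z hz =>
    fderiv_zero_of_notMem fun h => hz (hut h)
  -- integration by parts in one direction
  have key : ∀ w w', ∫ z, u z * fderiv ℝ (fun x => fderiv ℝ v x w) z w' =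
      - ∫ z, fderiv ℝ u z w' * fderiv ℝ v z w := by
    intro w w'
    refine integral_mul_fderiv_eq_neg_fderiv_mul_of_integrable (𝕜 := ℂ) ?_ ?_ ?_ ?_ ?_
    · exact int_glue hU hK ht ((huw w').continuousOn.mul (hvw w).continuousOn) fun z hz => by
        rw [hfu0 z hz]; simp
    · exact int_glue hU hK ht (hu.continuous.continuousOn.mul (hvww w w')) fun z hz => by
        rw [hu0 z hz, zero_mul]
    · exact int_glue hU hK ht (hu.continuous.continuousOn.mul (hvw w).continuousOn)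
        fun z hz => by rw [hu0 z hz, zero_mul]
    · exact fun x _ => hu.differentiable (by simp) x
    · intro x hx
      have hxU := ht (hut hx)
      exact (((hvw w) x hxU).contDiffAt (hU.mem_nhds hxU)).differentiableAt (by simp)
  have hsymm : ∫ z, u z * fderiv ℝ (fun x => fderiv ℝ v x Complex.I) z 1 =
      ∫ z, u z * fderiv ℝ (fun x => fderiv ℝ v x 1) z Complex.I := by
    refine integral_congr_ae (Eventually.of_forall fun z => ?_)
    by_cases hz : z ∈ tsupport ζ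
    · have hzU := ht hz
      have h1 : ContDiffAt ℝ ∞ v z := (hv z hzU).contDiffAt (hU.mem_nhds hzU)
      have h2 : HasFDerivAt (fderiv ℝ v) (fderiv ℝ (fderiv ℝ v) z) z :=
        ((h1.fderiv_right (m := ∞) (by simp)).differentiableAt (by simp)).hasFDerivAt
      have h3 : ∀ w w', fderiv ℝ (fun x => fderiv ℝ v x w) z w' =
          fderiv ℝ (fderiv ℝ v) z w' w := by
        intro w w'
        have h4 := h2.clm_apply (hasFDerivAt_const w z)
        rw [h4.fderiv]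
        simp
      have h5 : (2 : WithTop ℕ∞) ≤ ∞ := by
        show ((2 : ℕ∞) : WithTop ℕ∞) ≤ ((⊤ : ℕ∞) : WithTop ℕ∞)
        exact WithTop.coe_le_coe.2 le_top
      have h6 : fderiv ℝ (fderiv ℝ v) z 1 Complex.I = fderiv ℝ (fderiv ℝ v) z Complex.I 1 :=
        (h1.isSymmSndFDerivAt (by simpa using h5)) 1 Complex.I
      simp only [h3, h6]
    · simp only [hu0 z hz, zero_mul]
  have hE : ∀ z, QQ ζ z (y z) (wz y z) (wb y z) =
      (Complex.I / 2) * (fderiv ℝ u z 1 * fderiv ℝ v z Complex.I) -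
      (Complex.I / 2) * (fderiv ℝ u z Complex.I * fderiv ℝ v z 1) := by
    intro z
    by_cases hz : z ∈ tsupport ζ
    · have hzU := ht hz
      have h1 : HasFDerivAt y (fderiv ℝ y z) z :=
        (((hy z hzU).contDiffAt (hU.mem_nhds hzU)).differentiableAt (by simp)).hasFDerivAt
      have h2 : HasFDerivAt ζ (fderiv ℝ ζ z) z := (hζ.differentiable (by simp) z).hasFDerivAt
      have h3 : HasFDerivAt (fun z => (ζ z : ℂ)) (Complex.ofRealCLM.comp (fderiv ℝ ζ z)) z :=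
        Complex.ofRealCLM.hasFDerivAt.comp z h2
      have h4 : ∀ w, fderiv ℝ u z w = (ζ z : ℂ) * fderiv ℝ y z w +
          y z * (fderiv ℝ ζ z w : ℝ) := by
        intro w
        have h5 : HasFDerivAt u _ z := h3.mul h1
        rw [h5.fderiv]
        rfl
      have h6 : ∀ w, fderiv ℝ v z w = conj (fderiv ℝ y z w) := by
        intro w
        have h7 : HasFDerivAt v ((Complex.conjCLE : ℂ →L[ℝ] ℂ).comp (fderiv ℝ y z)) z :=
          (Complex.conjCLE : ℂ →L[ℝ] ℂ).hasFDerivAt.comp z h1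
        rw [h7.fderiv]
        rfl
      rw [QQ, h4, h4, h6, h6]
      push_cast
      rw [← Complex.mul_conj', ← Complex.mul_conj']
      simp only [rz, rb, wz, wb, map_div₀, map_sub, map_add, map_mul, Complex.conj_I,
        Complex.conj_ofNat]
      generalize fderiv ℝ y z 1 = a
      generalize fderiv ℝ y z Complex.I = b
      generalize ((fderiv ℝ ζ z 1 : ℝ) : ℂ) = c
      generalize ((fderiv ℝ ζ z Complex.I : ℝ) : ℂ) = d
      ring
    · rw [QQ_zero hz, hfu0 z hz]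
      simp
  have i1 : Integrable fun z => fderiv ℝ u z 1 * fderiv ℝ v z Complex.I :=
    int_glue hU hK ht ((huw 1).continuousOn.mul (hvw Complex.I).continuousOn) fun z hz => by
      rw [hfu0 z hz]; simp
  have i2 : Integrable fun z => fderiv ℝ u z Complex.I * fderiv ℝ v z 1 :=
    int_glue hU hK ht ((huw Complex.I).continuousOn.mul (hvw 1).continuousOn) fun z hz => by
      rw [hfu0 z hz]; simp
  simp only [hE]
  refine ⟨(i1.const_mul _).sub (i2.const_mul _), ?_⟩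
  rw [integral_sub (i1.const_mul _) (i2.const_mul _), integral_const_mul, integral_const_mul,
    ← mul_sub]
  have k1 := key Complex.I 1
  have k2 := key 1 Complex.I
  rw [hsymm, k2] at k1
  have k3 : ∫ z, fderiv ℝ u z 1 * fderiv ℝ v z Complex.I =
      ∫ z, fderiv ℝ u z Complex.I * fderiv ℝ v z 1 := by
    linear_combination k1
  rw [k3, sub_self, mul_zero]

variable {N : ℕ} {m A : ℂ × ℂ → ℂ} {ρ : ℝ} {Y P : ℂ → Fin N → ℂ} {R : Measure (ℂ × ℂ)}

/-- the identity `quad` for `f = ζ(z) y` -/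
lemma quad_zeta (H : MG2 N m A ρ Y P R) {ζ : ℂ → ℝ} (hζ : ContDiff ℝ ∞ ζ)
    (hc : HasCompactSupport ζ) (ht : tsupport ζ ⊆ ball 0 1) :
    (∫ z in ball (0 : ℂ) 1, ∑ i, QQ ζ z (Y z i) (P z i) (m (z, Y z i) * P z i + A (z, Y z i))) +
      ∫ p, (ζ p.1 : ℂ) ∂(R) = 0 := by
  have hρ0 : 0 ≤ |ρ| := abs_nonneg ρ
  let κ : ContDiffBump (0 : ℂ) := ⟨|ρ| + 1, |ρ| + 2, by linarith, by linarith⟩
  have hκ1 : ∀ y : ℂ, ‖y‖ ≤ ρ → ∀ᶠ w in 𝓝 y, κ w = 1 := by
    intro y hy
    have h1 : y ∈ ball (0 : ℂ) κ.rIn := by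
      rw [mem_ball, dist_zero_right]
      show ‖y‖ < |ρ| + 1
      linarith [le_abs_self ρ]
    filter_upwards [isOpen_ball.mem_nhds h1] with w hw
    exact κ.one_of_mem_closedBall (ball_subset_closedBall hw)
  set f : ℂ × ℂ → ℂ := fun p => (ζ p.1 : ℂ) * (p.2 * ((κ p.2 : ℝ) : ℂ)) with hf
  have hfs : ContDiff ℝ ∞ f :=
    (Complex.ofRealCLM.contDiff.comp (hζ.comp contDiff_fst)).mul
      (contDiff_snd.mul (Complex.ofRealCLM.contDiff.comp (κ.contDiff.comp contDiff_snd)))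
  have hK : IsCompact (tsupport ζ ×ˢ tsupport (κ : ℂ → ℝ)) :=
    hc.isCompact.prod κ.hasCompactSupport.isCompact
  have hf0 : ∀ p, p ∉ tsupport ζ ×ˢ tsupport (κ : ℂ → ℝ) → f p = 0 := by
    intro p hp
    by_cases h1 : p.1 ∈ tsupport ζ
    · have h2 : p.2 ∉ tsupport (κ : ℂ → ℝ) := fun h => hp ⟨h1, h⟩
      simp only [hf, image_eq_zero_of_notMem_tsupport h2]; simp
    · simp only [hf, image_eq_zero_of_notMem_tsupport h1]; simp
  have hts : tsupport f ⊆ tsupport ζ ×ˢ tsupport (κ : ℂ → ℝ) := closure_minimal (fun p hp => by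
    by_contra h; exact hp (hf0 p h)) hK.isClosed
  have hd : ∀ p : ℂ × ℂ, ‖p.2‖ ≤ ρ → ∀ v, fderiv ℝ f p v =
      (fderiv ℝ ζ p.1 v.1 : ℝ) * p.2 + ζ p.1 * v.2 := by
    intro p hp v
    have h1 : f =ᶠ[𝓝 p] fun q => (ζ q.1 : ℂ) * q.2 := by
      filter_upwards [continuous_snd.continuousAt.eventually (hκ1 p.2 hp)] with q hq
      simp only [hf, hq, Complex.ofReal_one, mul_one]
    have h2 : HasFDerivAt ζ (fderiv ℝ ζ p.1) p.1 := (hζ.differentiable (by simp) _).hasFDerivAt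
    have h3 : HasFDerivAt (fun q : ℂ × ℂ => (ζ q.1 : ℂ)) ((Complex.ofRealCLM.comp
        (fderiv ℝ ζ p.1)).comp (ContinuousLinearMap.fst ℝ ℂ ℂ)) p :=
      HasFDerivAt.comp p (g := fun z : ℂ => (ζ z : ℂ)) (Complex.ofRealCLM.hasFDerivAt.comp p.1 h2)
        (hasFDerivAt_fst (p := p))
    have h6 : HasFDerivAt (fun q : ℂ × ℂ => q.2) (ContinuousLinearMap.snd ℝ ℂ ℂ) p :=
      hasFDerivAt_snd (p := p)
    have h4 := h3.mul h6
    have h5 : HasFDerivAt (fun q : ℂ × ℂ => (ζ q.1 : ℂ) * q.2) _ p := h4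
    rw [h1.fderiv_eq, h5.fderiv]
    show (ζ p.1 : ℂ) * v.2 + p.2 * ((fderiv ℝ ζ p.1 v.1 : ℝ) : ℂ) = _
    ring
  have e1 : Complex.I • ((1 : ℂ), (0 : ℂ)) = (Complex.I, 0) := by simp
  have e2 : Complex.I • ((0 : ℂ), (1 : ℂ)) = (0, Complex.I) := by simp
  have c1 : ∀ p : ℂ × ℂ, ‖p.2‖ ≤ ρ → dC f p (1, 0) = rz ζ p.1 * p.2 := by
    intro p hp
    rw [dC, e1, hd p hp, hd p hp, rz]
    simp only [mul_zero, add_zero]
    ring
  have c2 : ∀ p : ℂ × ℂ, ‖p.2‖ ≤ ρ → dbC f p (1, 0) = rb ζ p.1 * p.2 := by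
    intro p hp
    rw [dbC, e1, hd p hp, hd p hp, rb]
    simp only [mul_zero, add_zero]
    ring
  have c3 : ∀ p : ℂ × ℂ, ‖p.2‖ ≤ ρ → dC f p (0, 1) = ζ p.1 := by
    intro p hp
    rw [dC, e2, hd p hp, hd p hp]
    simp only [map_zero, Complex.ofReal_zero, zero_mul, zero_add, mul_one]
    linear_combination (-(ζ p.1 : ℂ) / 2) * Complex.I_sq
  have h1 := H.quad f hfs (hK.of_isClosed_subset (isClosed_tsupport f) hts)
    (hts.trans (prod_mono ht (subset_univ _)))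
  refine Eq.trans ?_ h1
  refine congrArg₂ (· + ·) (integral_congr_ae (Eventually.of_forall fun z =>
    Finset.sum_congr rfl fun i _ => ?_)) (integral_congr_ae ?_)
  · have hy := H.bdd z i
    rw [c1 (z, Y z i) hy, c2 (z, Y z i) hy, c3 (z, Y z i) hy, QQ]
  · filter_upwards [H.Rsupp] with p hp
    rw [c3 p hp.2]

end Vale.Agent.P247.H899
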