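import Vale.Agent.P247.H899.Vrt

/-!
# VERT: integrability, and no mass of the vertical part over a point
-/

open scoped ContDiff Topology ComplexConjugate
open Set MeasureTheory Filter Metric

noncomputable section

namespace Vale.Agent.P247.H899

open Vale.Agent.P247.H74 Vale.Agent.P247.H574

variable {N : ℕ} {m A : ℂ × ℂ → ℂ} {ρ : ℝ} {Y P : ℂ → Fin N → ℂ} {R : Measure (ℂ × ℂ)}

lemma sheet_mem (hρ : ρ < 1) (H : MG N m A ρ Y P) {z : ℂ} (hz : z ∈ ball (0 : ℂ) 1) (i : Fin N) :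
    (z, Y z i) ∈ PD 2 := by
  rw [mem_ball, dist_zero_right] at hz
  have h1 := H.bdd z i
  refine ⟨?_, ?_⟩
  · rw [mem_ball, dist_zero_right]; show ‖z‖ < 2; linarith
  · rw [mem_ball, dist_zero_right]; show ‖Y z i‖ < 2; linarith

lemma aesm_sheet (hρ : ρ < 1) (H : MG N m A ρ Y P) {g : ℂ × ℂ → ℂ} (hg : ContinuousOn g (PD 2))
    (i : Fin N) :
    AEStronglyMeasurable (fun z => g (z, Y z i)) (volume.restrict (ball (0 : ℂ) 1)) := by
  classical
  have h1 : Measurable ((PD 2).indicator g) := by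
    have : (PD 2).indicator g = (PD 2).piecewise g (fun _ => 0) := by
      funext p
      simp [indicator, piecewise]
    rw [this]
    exact ContinuousOn.measurable_piecewise hg continuousOn_const (isOpen_PD 2).measurableSet
  have h2 : Measurable fun z : ℂ => (PD 2).indicator g (z, Y z i) :=
    h1.comp (measurable_id.prodMk (H.measY i))
  refine h2.aestronglyMeasurable.congr ?_
  filter_upwards [ae_restrict_mem measurableSet_ball] with z hz
  exact indicator_of_mem (sheet_mem hρ H hz i) g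

lemma exists_A (hA : ContDiffOn ℝ ∞ A (PD 2)) (hρ : ρ < 1) (H : MG N m A ρ Y P) :
    ∃ C, 0 ≤ C ∧ ∀ z ∈ ball (0 : ℂ) 1, ∀ i, ‖A (z, Y z i)‖ ≤ C := by
  have hK : IsCompact (closedBall (0 : ℂ) 1 ×ˢ closedBall (0 : ℂ) 1) :=
    (isCompact_closedBall _ _).prod (isCompact_closedBall _ _)
  have hsub : closedBall (0 : ℂ) 1 ×ˢ closedBall (0 : ℂ) 1 ⊆ PD 2 :=
    prod_mono (closedBall_subset_ball one_lt_two) (closedBall_subset_ball one_lt_two)
  obtain ⟨C, hC⟩ := hK.exists_bound_of_continuousOn (hA.continuousOn.mono hsub)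
  refine ⟨max C 0, le_max_right _ _, fun z hz i => (hC _ ⟨?_, ?_⟩).trans (le_max_left _ _)⟩
  · exact ball_subset_closedBall hz
  · rw [mem_closedBall, dist_zero_right]
    exact (H.bdd z i).trans hρ.le

lemma norm_Q_le (hm1 : ∀ p ∈ PD 2, ‖m p‖ < 1) (hρ : ρ < 1) (H : MG N m A ρ Y P) {C : ℝ}
    (hC : ∀ z ∈ ball (0 : ℂ) 1, ∀ i, ‖A (z, Y z i)‖ ≤ C) {z : ℂ} (hz : z ∈ ball (0 : ℂ) 1)
    (i : Fin N) : ‖m (z, Y z i) * P z i + A (z, Y z i)‖ ≤ ‖P z i‖ + C := by
  refine (norm_add_le _ _).trans (add_le_add ?_ (hC z hz i))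
  rw [norm_mul]
  exact mul_le_of_le_one_left (norm_nonneg _) (hm1 _ (sheet_mem hρ H hz i)).le

lemma P_sq_int (H : MG N m A ρ Y P) (i : Fin N) :
    IntegrableOn (fun z => ‖P z i‖ ^ 2) (ball 0 1) := by
  refine Integrable.mono' H.energy ((H.measP i).norm.pow_const 2).aestronglyMeasurable
    (Eventually.of_forall fun z => ?_)
  rw [Real.norm_of_nonneg (sq_nonneg _)]
  exact Finset.single_le_sum (f := fun i => ‖P z i‖ ^ 2) (fun _ _ => sq_nonneg _)
    (Finset.mem_univ i)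

lemma P_int (H : MG N m A ρ Y P) (i : Fin N) : IntegrableOn (fun z => P z i) (ball 0 1) := by
  have h1 : MemLp (fun z => P z i) 2 (volume.restrict (ball (0 : ℂ) 1)) :=
    (memLp_two_iff_integrable_sq_norm (H.measP i).aestronglyMeasurable).2 (P_sq_int H i)
  exact h1.integrable (by norm_num)

lemma Q_int (hm : ContDiffOn ℝ ∞ m (PD 2)) (hA : ContDiffOn ℝ ∞ A (PD 2))
    (hm1 : ∀ p ∈ PD 2, ‖m p‖ < 1) (hρ : ρ < 1) (H : MG N m A ρ Y P) (i : Fin N) :
    IntegrableOn (fun z => m (z, Y z i) * P z i + A (z, Y z i)) (ball 0 1) := by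
  obtain ⟨C, hC0, hC⟩ := exists_A hA hρ H
  refine Integrable.mono' (g := fun z => ‖P z i‖ + C) ?_ ?_ ?_
  · exact (P_int H i).norm.add (integrable_const _)
  · exact ((aesm_sheet hρ H hm.continuousOn i).mul (H.measP i).aestronglyMeasurable).add
      (aesm_sheet hρ H hA.continuousOn i)
  · filter_upwards [ae_restrict_mem measurableSet_ball] with z hz
    exact norm_Q_le hm1 hρ H hC hz i

/-- bound for `rz`, `rb` -/
lemma norm_rz_le {ζ : ℂ → ℝ} {z : ℂ} {M : ℝ} (h1 : |fderiv ℝ ζ z 1| ≤ M)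
    (h2 : |fderiv ℝ ζ z Complex.I| ≤ M) : ‖rz ζ z‖ ≤ M ∧ ‖rb ζ z‖ ≤ M := by
  have k1 : ‖((fderiv ℝ ζ z 1 : ℝ) : ℂ)‖ ≤ M := by rwa [Complex.norm_real]
  have k2 : ‖Complex.I * ((fderiv ℝ ζ z Complex.I : ℝ) : ℂ)‖ ≤ M := by
    rw [norm_mul, Complex.norm_I, one_mul, Complex.norm_real]; exact h2
  constructor
  · rw [rz, norm_div, show ‖(2 : ℂ)‖ = 2 by simp, div_le_iff₀ two_pos]
    exact (norm_sub_le _ _).trans (by linarith)
  · rw [rb, norm_div, show ‖(2 : ℂ)‖ = 2 by simp, div_le_iff₀ two_pos]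
    exact (norm_add_le _ _).trans (by linarith)

/-- no mass over a point -/
theorem no_atom (hA : ContDiffOn ℝ ∞ A (PD 2))
    (hm1 : ∀ p ∈ PD 2, ‖m p‖ < 1) (hρ : ρ < 1) (H : MG2 N m A ρ Y P R) :
    R ({(0 : ℂ)} ×ˢ univ) = 0 := by
  have hfin : IsFiniteMeasure R := ⟨H.Rfin⟩
  obtain ⟨C, hC0, hC⟩ := exists_A hA hρ H.toMG
  let η : ContDiffBump (0 : ℂ) := ⟨1 / 4, 1 / 2, by norm_num, by norm_num⟩
  have hηs : ContDiff ℝ ∞ (η : ℂ → ℝ) := η.contDiff
  obtain ⟨M, hM⟩ := (η.hasCompactSupport.fderiv ℝ).exists_bound_of_continuous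
    (hηs.continuous_fderiv (by simp))
  have hM0 : 0 ≤ M := (norm_nonneg _).trans (hM 0)
  set e : ℂ → ℝ := fun z => ∑ i, ‖P z i‖ ^ 2 with he
  set x : ℝ := (R ({(0 : ℂ)} ×ˢ univ)).toReal with hx
  have hxn : ∀ ε : ℝ, 0 < ε → ∀ n : ℕ, x ≤ N * Real.pi * (ε + M * C * (1 / ((n : ℝ) + 1)) +
      2 * C ^ 2 * (1 / ((n : ℝ) + 1)) ^ 2) + (3 + M ^ 2 / ε) *
      ∫ z in ball (0 : ℂ) (1 / ((n : ℝ) + 1)), e z := by
    intro ε hε n
    set s : ℝ := (n : ℝ) + 1 with hs
    have hs1 : 1 ≤ s := by have : (0 : ℝ) ≤ n := Nat.cast_nonneg n; linarith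
    have hs0 : 0 < s := by linarith
    have hinv : 1 / s ≤ 1 := by rw [div_le_one hs0]; exact hs1
    set ζ : ℂ → ℝ := fun z => η (s • z) with hζ
    have hζs : ContDiff ℝ ∞ ζ := hηs.comp (contDiff_const_smul s)
    have hζ0 : ∀ z, 1 / (2 * s) ≤ ‖z‖ → ζ z = 0 := by
      intro z hz
      refine η.zero_of_le_dist ?_
      rw [dist_zero_right, norm_smul, Real.norm_of_nonneg hs0.le]
      show (1 : ℝ) / 2 ≤ _
      rw [div_le_iff₀ (by positivity)] at hz
      linarith
    have hζt : tsupport ζ ⊆ closedBall 0 (1 / (2 * s)) := by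
      refine closure_minimal (fun z hz => ?_) isClosed_closedBall
      rw [mem_closedBall, dist_zero_right]
      by_contra h
      push Not at h
      exact hz (hζ0 z h.le)
    have hlt : 1 / (2 * s) < 1 / s := by
      apply one_div_lt_one_div_of_lt hs0; linarith
    have hζt2 : tsupport ζ ⊆ ball 0 (1 / s) := hζt.trans (closedBall_subset_ball hlt)
    have hζc : HasCompactSupport ζ :=
      (isCompact_closedBall (0 : ℂ) (1 / (2 * s))).of_isClosed_subset (isClosed_tsupport ζ) hζt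
    have hζd : ∀ z v, ‖v‖ ≤ 1 → |fderiv ℝ ζ z v| ≤ s * M := by
      intro z v hv
      have h1 : HasFDerivAt ζ ((fderiv ℝ (η : ℂ → ℝ) (s • z)).comp
          (s • ContinuousLinearMap.id ℝ ℂ)) z :=
        HasFDerivAt.comp z (g := (η : ℂ → ℝ)) ((hηs.differentiable (by simp) _).hasFDerivAt)
          ((hasFDerivAt_id z).const_smul s)
      rw [h1.fderiv]
      show |fderiv ℝ (η : ℂ → ℝ) (s • z) (s • v)| ≤ s * M
      rw [map_smul, smul_eq_mul, abs_mul, abs_of_pos hs0]
      refine mul_le_mul_of_nonneg_left ?_ hs0.le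
      have h2 := (fderiv ℝ (η : ℂ → ℝ) (s • z)).le_opNorm v
      rw [Real.norm_eq_abs] at h2
      exact h2.trans ((mul_le_mul_of_nonneg_left hv (norm_nonneg _)).trans
        (by rw [mul_one]; exact hM _))
    have h1 := quad_zeta H hζs hζc (hζt2.trans (ball_subset_ball hinv))
    -- lower bound of the vertical integral
    have hint : Integrable (fun p : ℂ × ℂ => ζ p.1) R := by
      refine Integrable.of_bound (C := 1) (hζs.continuous.comp continuous_fst).aestronglyMeasurable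
        (Eventually.of_forall fun p => ?_)
      rw [Real.norm_of_nonneg η.nonneg]
      exact η.le_one
    have h2 : x ≤ ∫ p, ζ p.1 ∂(R) := by
      have h3 : ∫ p, (({(0 : ℂ)} ×ˢ univ : Set (ℂ × ℂ)).indicator (fun _ => (1 : ℝ))) p ∂(R) = x := by
        rw [integral_indicator ((measurableSet_singleton _).prod MeasurableSet.univ)]
        simp [hx, Measure.real]
      rw [← h3]
      refine integral_mono_of_nonneg (Eventually.of_forall fun p =>
        indicator_nonneg (fun _ _ => zero_le_one) _) hint (Eventually.of_forall fun p => ?_)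
      by_cases hp : p ∈ ({(0 : ℂ)} ×ˢ univ : Set (ℂ × ℂ))
      · simp only [indicator_of_mem hp]
        have hp1 : p.1 = 0 := hp.1
        simp only [hζ, hp1, smul_zero]
        rw [η.one_of_mem_closedBall (mem_closedBall_self (by norm_num [η]))]
      · simp only [indicator_of_notMem hp]
        exact η.nonneg
    have h3 : ∫ p, ζ p.1 ∂(R) ≤ ‖∫ z in ball (0 : ℂ) 1, ∑ i,
        QQ ζ z (Y z i) (P z i) (m (z, Y z i) * P z i + A (z, Y z i))‖ := by
      have h4 : ((∫ p, ζ p.1 ∂(R) : ℝ) : ℂ) = ∫ p, (ζ p.1 : ℂ) ∂(R) := integral_ofReal.symm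
      have h5 : ‖((∫ p, ζ p.1 ∂(R) : ℝ) : ℂ)‖ = ‖∫ z in ball (0 : ℂ) 1, ∑ i,
        QQ ζ z (Y z i) (P z i) (m (z, Y z i) * P z i + A (z, Y z i))‖ := by
        rw [h4, ← norm_neg, ← eq_neg_of_add_eq_zero_left h1]
      rw [← h5, Complex.norm_real]
      exact le_abs_self _
    -- upper bound
    have h4 : ∀ z ∈ ball (0 : ℂ) 1, ∀ i,
        ‖QQ ζ z (Y z i) (P z i) (m (z, Y z i) * P z i + A (z, Y z i))‖ ≤
        (ball (0 : ℂ) (1 / s)).indicator (fun z => ε * s ^ 2 + s * M * C + 2 * C ^ 2 +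
          (3 + M ^ 2 / ε) * ‖P z i‖ ^ 2) z := by
      intro z hz i
      by_cases hzs : z ∈ ball (0 : ℂ) (1 / s)
      · rw [indicator_of_mem hzs]
        have hQ := norm_Q_le hm1 hρ H.toMG hC hz i
        have hY := (H.bdd z i).trans hρ.le
        have hr := norm_rz_le (hζd z 1 (by simp)) (hζd z Complex.I (by simp))
        set Q := m (z, Y z i) * P z i + A (z, Y z i) with hQdef
        have hP0 := norm_nonneg (P z i)
        have hQ0 := norm_nonneg Q
        have hsM : 0 ≤ s * M := mul_nonneg hs0.le hM0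
        have b1 : ‖rz ζ z * Y z i * conj (P z i)‖ ≤ s * M * ‖P z i‖ := by
          rw [norm_mul, norm_mul, Complex.norm_conj]
          refine mul_le_mul_of_nonneg_right ?_ hP0
          calc ‖rz ζ z‖ * ‖Y z i‖ ≤ (s * M) * 1 := mul_le_mul hr.1 hY (norm_nonneg _) hsM
            _ = s * M := mul_one _
        have b2 : ‖rb ζ z * Y z i * conj Q‖ ≤ s * M * ‖Q‖ := by
          rw [norm_mul, norm_mul, Complex.norm_conj]
          refine mul_le_mul_of_nonneg_right ?_ hQ0
          calc ‖rb ζ z‖ * ‖Y z i‖ ≤ (s * M) * 1 := mul_le_mul hr.2 hY (norm_nonneg _) hsM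
            _ = s * M := mul_one _
        have b3 : ‖(ζ z : ℂ) * ((‖P z i‖ ^ 2 - ‖Q‖ ^ 2 : ℝ) : ℂ)‖ ≤ ‖P z i‖ ^ 2 + ‖Q‖ ^ 2 := by
          rw [norm_mul, Complex.norm_real, Complex.norm_real]
          have e1 : ‖ζ z‖ ≤ 1 := by
            rw [Real.norm_of_nonneg η.nonneg]; exact η.le_one
          have e2 : ‖‖P z i‖ ^ 2 - ‖Q‖ ^ 2‖ ≤ ‖P z i‖ ^ 2 + ‖Q‖ ^ 2 := by
            rw [Real.norm_eq_abs, abs_le]
            constructor <;> nlinarith [sq_nonneg ‖P z i‖, sq_nonneg ‖Q‖]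
          calc ‖ζ z‖ * ‖‖P z i‖ ^ 2 - ‖Q‖ ^ 2‖ ≤ 1 * (‖P z i‖ ^ 2 + ‖Q‖ ^ 2) :=
                mul_le_mul e1 e2 (norm_nonneg _) zero_le_one
            _ = _ := one_mul _
        have b4 : ‖QQ ζ z (Y z i) (P z i) Q‖ ≤ s * M * ‖P z i‖ + s * M * ‖Q‖ +
            (‖P z i‖ ^ 2 + ‖Q‖ ^ 2) := by
          rw [QQ]
          exact (norm_add_le _ _).trans (add_le_add ((norm_sub_le _ _).trans
            (add_le_add b1 b2)) b3)
        have b5 : ‖Q‖ ^ 2 ≤ 2 * ‖P z i‖ ^ 2 + 2 * C ^ 2 := by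
          have : ‖Q‖ ^ 2 ≤ (‖P z i‖ + C) ^ 2 := pow_le_pow_left₀ hQ0 hQ 2
          nlinarith [sq_nonneg (‖P z i‖ - C)]
        have b6 : 2 * (s * M * ‖P z i‖) ≤ ε * s ^ 2 + M ^ 2 / ε * ‖P z i‖ ^ 2 := by
          have h0 : 0 ≤ (ε * s - M * ‖P z i‖) ^ 2 / ε := div_nonneg (sq_nonneg _) hε.le
          have h00 : (ε * s - M * ‖P z i‖) ^ 2 / ε = ε * s ^ 2 + M ^ 2 / ε * ‖P z i‖ ^ 2 -
              2 * (s * M * ‖P z i‖) := by
            field_simp
            ring
          linarith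
        have b7 : s * M * ‖Q‖ ≤ s * M * ‖P z i‖ + s * M * C := by
          rw [← mul_add]; exact mul_le_mul_of_nonneg_left hQ hsM
        calc ‖QQ ζ z (Y z i) (P z i) Q‖ ≤ _ := b4
          _ ≤ _ := by nlinarith
      · rw [indicator_of_notMem hzs, QQ_zero (fun h => hzs (hζt2 h)), norm_zero]
    have hsub : ball (0 : ℂ) (1 / s) ⊆ ball 0 1 := ball_subset_ball hinv
    have hei : IntegrableOn e (ball (0 : ℂ) (1 / s)) := H.energy.mono_set hsub
    have h5 : ‖∫ z in ball (0 : ℂ) 1, ∑ i,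
        QQ ζ z (Y z i) (P z i) (m (z, Y z i) * P z i + A (z, Y z i))‖ ≤
        ∫ z in ball (0 : ℂ) 1, (ball (0 : ℂ) (1 / s)).indicator (fun z =>
          N * (ε * s ^ 2 + s * M * C + 2 * C ^ 2) + (3 + M ^ 2 / ε) * e z) z := by
      refine norm_integral_le_of_norm_le ?_ ?_
      · refine Integrable.indicator ?_ measurableSet_ball
        exact (integrable_const _).add (H.energy.const_mul _)
      · filter_upwards [ae_restrict_mem measurableSet_ball] with z hz
        refine (norm_sum_le _ _).trans ((Finset.sum_le_sum fun i _ => h4 z hz i).trans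
          (le_of_eq ?_))
        by_cases hzs : z ∈ ball (0 : ℂ) (1 / s)
        · simp only [indicator_of_mem hzs]
          rw [Finset.sum_add_distrib, ← Finset.mul_sum]
          simp only [he, Finset.sum_const, Finset.card_univ, Fintype.card_fin, nsmul_eq_mul]
        · simp only [indicator_of_notMem hzs]
          simp
    have h6 : ∫ z in ball (0 : ℂ) 1, (ball (0 : ℂ) (1 / s)).indicator (fun z =>
          N * (ε * s ^ 2 + s * M * C + 2 * C ^ 2) + (3 + M ^ 2 / ε) * e z) z =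
        N * Real.pi * (ε + M * C * (1 / s) + 2 * C ^ 2 * (1 / s) ^ 2) + (3 + M ^ 2 / ε) *
          ∫ z in ball (0 : ℂ) (1 / s), e z := by
      have hfb : IsFiniteMeasure (volume.restrict (ball (0 : ℂ) (1 / s))) :=
        isFiniteMeasure_restrict.2 measure_ball_lt_top.ne
      rw [setIntegral_indicator measurableSet_ball, inter_eq_self_of_subset_right hsub,
        integral_add (integrable_const _) (hei.const_mul _),
        integral_const_mul (3 + M ^ 2 / ε) e, setIntegral_const]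
      congr 1
      rw [Measure.real, Complex.volume_ball, ENNReal.toReal_mul, ENNReal.toReal_pow,
        ENNReal.toReal_ofReal (by positivity)]
      simp only [smul_eq_mul, ENNReal.coe_toReal, NNReal.coe_real_pi]
      field_simp
    linarith [h2, h3, h5, h6.le]
  -- pass to the limit
  have hlim : Tendsto (fun n : ℕ => ∫ z in ball (0 : ℂ) (1 / ((n : ℝ) + 1)), e z) atTop (𝓝 0) := by
    have h1 : Antitone fun n : ℕ => ball (0 : ℂ) (1 / ((n : ℝ) + 1)) := by
      intro a c hac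
      refine ball_subset_ball (one_div_le_one_div_of_le (by positivity) ?_)
      have : (a : ℝ) ≤ c := by exact_mod_cast hac
      linarith
    have h2 := Antitone.tendsto_setIntegral (μ := volume) (f := e)
      (fun n => (measurableSet_ball : MeasurableSet (ball (0 : ℂ) (1 / ((n : ℝ) + 1))))) h1
      (by simpa using H.energy)
    have h3 : (⋂ n : ℕ, ball (0 : ℂ) (1 / ((n : ℝ) + 1))) = {0} := by
      ext z
      simp only [mem_iInter, mem_ball, dist_zero_right, mem_singleton_iff]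
      constructor
      · intro h
        by_contra h0
        obtain ⟨n, hn⟩ := exists_nat_one_div_lt (norm_pos_iff.2 h0)
        exact absurd (h n) (not_lt.2 hn.le)
      · rintro rfl n
        rw [norm_zero]; positivity
    rw [h3] at h2
    simpa using h2
  have hxε : ∀ ε : ℝ, 0 < ε → x ≤ N * Real.pi * ε := by
    intro ε hε
    have h1 : Tendsto (fun n : ℕ => N * Real.pi * (ε + M * C * (1 / ((n : ℝ) + 1)) +
      2 * C ^ 2 * (1 / ((n : ℝ) + 1)) ^ 2) + (3 + M ^ 2 / ε) *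
      ∫ z in ball (0 : ℂ) (1 / ((n : ℝ) + 1)), e z) atTop
      (𝓝 (N * Real.pi * (ε + M * C * 0 + 2 * C ^ 2 * 0 ^ 2) + (3 + M ^ 2 / ε) * 0)) := by
      have h0 := tendsto_one_div_add_atTop_nhds_zero_nat (𝕜 := ℝ)
      exact ((tendsto_const_nhds.mul ((tendsto_const_nhds.add (h0.const_mul _)).add
        ((h0.pow 2).const_mul _)))).add (hlim.const_mul _)
    have h2 := ge_of_tendsto' h1 (hxn ε hε)
    simpa using h2
  have hx0 : x ≤ 0 := by
    refine le_of_forall_pos_le_add fun ε hε => ?_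
    rw [zero_add]
    have h1 : 0 ≤ N * Real.pi := by positivity
    have h2 := hxε (ε / (N * Real.pi + 1)) (by positivity)
    refine h2.trans ?_
    rw [← mul_div_assoc, div_le_iff₀ (by positivity)]
    nlinarith
  have h1 : x = 0 := le_antisymm hx0 ENNReal.toReal_nonneg
  rcases (ENNReal.toReal_eq_zero_iff _).1 h1 with h | h
  · exact h
  · exact absurd h (measure_ne_top _ _)

end Vale.Agent.P247.H899
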